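import Vale.Agent.Lib.P060.Minor

namespace Vale.Agent.Lib.P060

theorem hasCliqueMinor_of_finset {V ι : Type*} (G : SimpleGraph V) (s : Finset ι) (B : ι → Set V)
    (hconn : ∀ i ∈ s, (G.induce (B i)).Connected)
    (hdisj : ∀ i ∈ s, ∀ j ∈ s, i ≠ j → Disjoint (B i) (B j))
    (hadj : ∀ i ∈ s, ∀ j ∈ s, i ≠ j → ∃ u ∈ B i, ∃ v ∈ B j, G.Adj u v) :
    HasCliqueMinor G s.card := by
  let e := s.equivFin
  have hne : ∀ i j : Fin s.card, i ≠ j → (e.symm i).1 ≠ (e.symm j).1 := by
    intro i j hij h
    exact hij (e.symm.injective (Subtype.ext h))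
  exact ⟨fun k => B (e.symm k).1, fun k => hconn _ (e.symm k).2,
    fun i j hij => hdisj _ (e.symm i).2 _ (e.symm j).2 (hne i j hij),
    fun i j hij => hadj _ (e.symm i).2 _ (e.symm j).2 (hne i j hij)⟩

theorem induce_pair_connected {V : Type*} (G : SimpleGraph V) (a b : V) (hab : G.Adj a b) :
    (G.induce ({a, b} : Set V)).Connected := by
  refine induce_connected_of_reach G {a, b} a (by simp) ?_
  intro v hv
  rcases hv with rfl | hv
  · exact Relation.ReflTransGen.refl
  · rw [Set.mem_singleton_iff] at hv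
    subst hv
    exact Relation.ReflTransGen.single ⟨by simp, by simp, hab⟩

/-- The key lemma. Let `G` have no independent triple, and let `φ` be a self-map of the vertex set
that preserves distinct non-adjacent pairs and sends every vertex `x` to a vertex `φ x` with
`φ (φ x)` distinct from and non-adjacent to `x`. If `A` is a finite vertex set on which `φ` is
injective and whose image is disjoint from `A`, then the pairs `{x, φ x}`, `x ∈ A`, are the branch
sets of a complete minor. -/
theorem hasCliqueMinor_of_shift {V : Type*} (G : SimpleGraph V)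
    (hα : ∀ x y z, x ≠ y → y ≠ z → x ≠ z → G.Adj x y ∨ G.Adj y z ∨ G.Adj x z)
    (φ : V → V)
    (hφ : ∀ x y, x ≠ y → ¬ G.Adj x y → φ x ≠ φ y ∧ ¬ G.Adj (φ x) (φ y))
    (hsq : ∀ x, x ≠ φ (φ x) ∧ ¬ G.Adj x (φ (φ x)))
    (A : Finset V) (hA : ∀ x ∈ A, φ x ∉ A) (hinj : ∀ x ∈ A, ∀ y ∈ A, φ x = φ y → x = y) :
    HasCliqueMinor G A.card := by
  have hne : ∀ x, x ≠ φ x := by
    intro x h
    apply (hsq x).1
    rw [← h, ← h]
  have hadj : ∀ x, G.Adj x (φ x) := by
    intro x
    by_contra h
    have h1 := hφ x (φ x) (hne x) h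
    rcases hα x (φ x) (φ (φ x)) (hne x) h1.1 (hsq x).1 with h2 | h2 | h2
    · exact h h2
    · exact h1.2 h2
    · exact (hsq x).2 h2
  refine hasCliqueMinor_of_finset G A (fun x => {x, φ x}) ?_ ?_ ?_
  · intro x _
    exact induce_pair_connected G x (φ x) (hadj x)
  · intro x hx y hy hxy
    rw [Set.disjoint_left]
    intro v hv hv'
    rcases hv with rfl | hv
    · rcases hv' with h | h
      · exact hxy h
      · rw [Set.mem_singleton_iff] at h
        exact hA y hy (h ▸ hx)
    · rw [Set.mem_singleton_iff] at hv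
      subst hv
      rcases hv' with h | h
      · exact hA x hx (h ▸ hy)
      · rw [Set.mem_singleton_iff] at h
        exact hxy (hinj x hx y hy h)
  · intro x hx y hy hxy
    by_contra hcon
    have hno : ∀ u ∈ ({x, φ x} : Set V), ∀ v ∈ ({y, φ y} : Set V), ¬ G.Adj u v := by
      intro u hu v hv h
      exact hcon ⟨u, hu, v, hv, h⟩
    have h1 : ¬ G.Adj (φ x) y := hno (φ x) (by simp) y (by simp)
    have h2 : ¬ G.Adj x (φ y) := hno x (by simp) (φ y) (by simp)
    have hx1 : φ x ≠ y := fun h => hA x hx (h ▸ hy)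
    have hx2 : x ≠ φ y := fun h => hA y hy (h ▸ hx)
    have h3 := hφ x (φ y) hx2 h2
    rcases hα (φ x) y (φ (φ y)) hx1 (hsq y).1 h3.1 with h4 | h4 | h4
    · exact h1 h4
    · exact (hsq y).2 h4
    · exact h3.2 h4

theorem no_indep_triple {V : Type*} [Finite V] (G : SimpleGraph V) (h : G.indepNum ≤ 2) :
    ∀ x y z, x ≠ y → y ≠ z → x ≠ z → G.Adj x y ∨ G.Adj y z ∨ G.Adj x z := by
  classical
  intro x y z hxy hyz hxz
  by_contra hcon
  simp only [not_or] at hcon
  obtain ⟨h1, h2, h3⟩ := hcon
  have hind : G.IsIndepSet (({x, y, z} : Finset V) : Set V) := by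
    intro u hu v hv huv
    simp only [Finset.coe_insert, Finset.coe_singleton, Set.mem_insert_iff,
      Set.mem_singleton_iff] at hu hv
    rcases hu with rfl | rfl | rfl <;> rcases hv with rfl | rfl | rfl
    · exact absurd rfl huv
    · exact h1
    · exact h3
    · exact fun h => h1 h.symm
    · exact absurd rfl huv
    · exact h2
    · exact fun h => h3 h.symm
    · exact fun h => h2 h.symm
    · exact absurd rfl huv
  have hcard := hind.card_le_indepNum
  have h3' : ({x, y, z} : Finset V).card = 3 := by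
    rw [Finset.card_insert_of_notMem, Finset.card_insert_of_notMem, Finset.card_singleton]
    · simpa using hyz
    · simp [hxy, hxz]
  omega

theorem const_of_reachable {V α : Type*} (G : SimpleGraph V) (f : V → α)
    (h : ∀ x y, G.Adj x y → f x = f y) {x y : V} (hr : G.Reachable x y) : f x = f y := by
  obtain ⟨p⟩ := hr
  induction p with
  | nil => rfl
  | cons hadj _ ih => exact (h _ _ hadj).trans ih

end Vale.Agent.Lib.P060
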