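import Vale.Agent.Lib.P060.Defs

namespace Vale.Agent.Lib.P060

/-- The circulant graph on `ZMod n` with connection set `C`: two distinct residues `x`, `y` are
adjacent iff `x - y ∈ C` or `y - x ∈ C`. -/
def circulantGraph (n : ℕ) (C : Set (ZMod n)) : SimpleGraph (ZMod n) where
  Adj x y := x ≠ y ∧ (x - y ∈ C ∨ y - x ∈ C)
  symm := ⟨fun _ _ h => ⟨h.1.symm, h.2.symm⟩⟩
  loopless := ⟨fun _ h => h.1 rfl⟩

end Vale.Agent.Lib.P060
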