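import Vale.Agent.Lib.P060.Circulant

namespace Vale.Agent.Lib.P060

/-- Lower end of the `k`-th pair, as a natural number; `τ k` is the type of the pair
(`0`: a jump of length three, `1`: a shifted pair, `2`: a plain pair). -/
def pairLo (τ : ℕ → ℕ) (k : ℕ) : ℕ :=
  if τ k = 0 then 2 * k - 1 else if τ k = 1 then 2 * k + 2 else 2 * k + 1

/-- Upper end of the `k`-th pair. -/
def pairHi (τ : ℕ → ℕ) (k : ℕ) : ℕ :=
  pairLo τ k + (if τ k = 0 then 3 else 1)

theorem pair_disjoint_lt (τ : ℕ → ℕ) (T0 : τ 0 ≠ 0) (T1 : ∀ k, τ k = 1 → τ (k + 1) = 0)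
    (T2 : ∀ k, τ (k + 1) = 0 → τ k = 1) {k l : ℕ} (hkl : k < l) :
    pairLo τ k ≠ pairLo τ l ∧ pairLo τ k ≠ pairHi τ l ∧ pairHi τ k ≠ pairLo τ l ∧
      pairHi τ k ≠ pairHi τ l := by
  have hk0 : τ k = 0 → 1 ≤ k := by
    intro h
    rcases Nat.eq_zero_or_pos k with h0 | h0
    · subst h0; exact absurd h T0
    · exact h0
  have a1 := T1 k
  have a2 := T2 k
  have a3 : τ (k + 1) = 1 → τ (k + 2) = 0 := T1 (k + 1)
  have a4 : τ (k + 2) = 0 → τ (k + 1) = 1 := T2 (k + 1)
  by_cases h1 : l = k + 1
  · subst h1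
    unfold pairHi pairLo
    refine ⟨?_, ?_, ?_, ?_⟩ <;> split_ifs <;> omega
  · by_cases h2 : l = k + 2
    · subst h2
      unfold pairHi pairLo
      refine ⟨?_, ?_, ?_, ?_⟩ <;> split_ifs <;> omega
    · unfold pairHi pairLo
      refine ⟨?_, ?_, ?_, ?_⟩ <;> split_ifs <;> omega

theorem pair_disjoint (τ : ℕ → ℕ) (T0 : τ 0 ≠ 0) (T1 : ∀ k, τ k = 1 → τ (k + 1) = 0)
    (T2 : ∀ k, τ (k + 1) = 0 → τ k = 1) {k l : ℕ} (hkl : k ≠ l) :
    pairLo τ k ≠ pairLo τ l ∧ pairLo τ k ≠ pairHi τ l ∧ pairHi τ k ≠ pairLo τ l ∧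
      pairHi τ k ≠ pairHi τ l := by
  rcases Nat.lt_or_gt_of_ne hkl with h | h
  · exact pair_disjoint_lt τ T0 T1 T2 h
  · obtain ⟨b1, b2, b3, b4⟩ := pair_disjoint_lt τ T0 T1 T2 h
    exact ⟨b1.symm, b3.symm, b2.symm, b4.symm⟩

theorem cast_ne_of_lt {n a b : ℕ} [NeZero n] (ha : a < n) (hb : b < n) (hab : a ≠ b) :
    (a : ZMod n) ≠ (b : ZMod n) := by
  intro h
  apply hab
  have := congrArg ZMod.val h
  rwa [ZMod.val_natCast_of_lt ha, ZMod.val_natCast_of_lt hb] at this

theorem adj_pairs_11 {n : ℕ} (C : Set (ZMod n))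
    (hS1 : ∀ x : ZMod n, x ∈ nonDiff n C → x + 2 ∉ nonDiff n C) (y z : ZMod n)
    (h2 : y ≠ z + 1) (h3 : y + 1 ≠ z) :
    ∃ u ∈ ({y, y + 1} : Set (ZMod n)), ∃ v ∈ ({z, z + 1} : Set (ZMod n)),
      (circulantGraph n C).Adj u v := by
  by_contra hcon
  have hno : ∀ u ∈ ({y, y + 1} : Set (ZMod n)), ∀ v ∈ ({z, z + 1} : Set (ZMod n)),
      ¬ (circulantGraph n C).Adj u v := fun u hu v hv h => hcon ⟨u, hu, v, hv, h⟩
  have e1 := (not_adj_iff C h2).mp (hno y (by simp) (z + 1) (by simp))
  have e2 := (not_adj_iff C h3).mp (hno (y + 1) (by simp) z (by simp))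
  apply hS1 _ e1
  have : y - (z + 1) + 2 = y + 1 - z := by ring
  rw [this]; exact e2

theorem adj_pairs_13 {n : ℕ} (C : Set (ZMod n))
    (hS1 : ∀ x : ZMod n, x ∈ nonDiff n C → x + 2 ∉ nonDiff n C) (y z : ZMod n)
    (h1 : y ≠ z) (h2 : y + 1 ≠ z + 3) :
    ∃ u ∈ ({y, y + 1} : Set (ZMod n)), ∃ v ∈ ({z, z + 3} : Set (ZMod n)),
      (circulantGraph n C).Adj u v := by
  by_contra hcon
  have hno : ∀ u ∈ ({y, y + 1} : Set (ZMod n)), ∀ v ∈ ({z, z + 3} : Set (ZMod n)),
      ¬ (circulantGraph n C).Adj u v := fun u hu v hv h => hcon ⟨u, hu, v, hv, h⟩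
  have e1 := (not_adj_iff C h1).mp (hno y (by simp) z (by simp))
  have e2 := (not_adj_iff C h2).mp (hno (y + 1) (by simp) (z + 3) (by simp))
  apply hS1 _ e2
  have : y + 1 - (z + 3) + 2 = y - z := by ring
  rw [this]; exact e1

theorem adj_pairs_33 {n : ℕ} (C : Set (ZMod n))
    (hsub : ∀ a b : ZMod n, a ∈ nonDiff n C → b ∈ nonDiff n C → a - b ∉ nonDiff n C)
    (y z : ZMod n) (hy : y + 3 ∈ nonDiff n C) (hz : z + 3 ∈ nonDiff n C) (hne : y + 3 ≠ z + 3) :
    ∃ u ∈ ({y, y + 3} : Set (ZMod n)), ∃ v ∈ ({z, z + 3} : Set (ZMod n)),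
      (circulantGraph n C).Adj u v := by
  refine ⟨y + 3, by simp, z + 3, by simp, ?_⟩
  by_contra h
  rw [not_adj_iff C hne] at h
  exact hsub _ _ hy hz h

theorem adj_swap {V : Type*} (G : SimpleGraph V) {A B : Set V}
    (h : ∃ u ∈ A, ∃ v ∈ B, G.Adj u v) : ∃ v ∈ B, ∃ u ∈ A, G.Adj v u := by
  obtain ⟨u, hu, v, hv, huv⟩ := h
  exact ⟨v, hv, u, hu, huv.symm⟩

theorem odd_core_minor (n m : ℕ) [NeZero n] (hn : n = 2 * m + 1) (C : Set (ZMod n))
    (hsf : ∀ a b : ZMod n, a ∈ nonDiff n C → b ∈ nonDiff n C → a + b ∉ nonDiff n C)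
    (h2 : (2 : ZMod n) ∈ nonDiff n C) (h3 : (3 : ZMod n) ∉ nonDiff n C) :
    HasCliqueMinor (circulantGraph n C) (m + 1) := by
  classical
  have hS1 : ∀ x : ZMod n, x ∈ nonDiff n C → x + 2 ∉ nonDiff n C := fun x hx => hsf x 2 hx h2
  have h1 : (1 : ZMod n) ∉ nonDiff n C := by
    intro h
    apply hsf 1 1 h h
    have : (1 : ZMod n) + 1 = 2 := by norm_num
    rw [this]; exact h2
  have hm1 : (-1 : ZMod n) ∉ nonDiff n C := fun h => h1 (by simpa using nonDiff_neg h)
  have hsub : ∀ a b : ZMod n, a ∈ nonDiff n C → b ∈ nonDiff n C → a - b ∉ nonDiff n C := by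
    intro a b ha hb h
    apply hsf b (a - b) hb h
    rw [add_sub_cancel]; exact ha
  have h0 : (0 : ZMod n) ∉ nonDiff n C := fun h => h.1 rfl
  let bad : ℕ → Prop := fun i =>
    ((i : ℕ) : ZMod n) ∈ nonDiff n C ∧ ((i + 1 : ℕ) : ZMod n) ∈ nonDiff n C
  have hB1 : ∀ i, bad i → ¬ bad (i + 2) := by
    intro i hi hi2
    apply hS1 _ hi.1
    have : ((i : ℕ) : ZMod n) + 2 = ((i + 2 : ℕ) : ZMod n) := by push_cast; ring
    rw [this]; exact hi2.1
  have hbad1 : ¬ bad 1 := by
    intro h
    apply h1
    have := h.1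
    simpa using this
  let τ : ℕ → ℕ := fun k => if bad (2 * k + 1) then 0 else if bad (2 * k + 3) then 1 else 2
  have hτ0 : ∀ k, τ k = 0 ↔ bad (2 * k + 1) := by
    intro k
    simp only [τ]
    split_ifs with h h' <;> simp [h]
  have hτ1 : ∀ k, τ k = 1 ↔ ¬ bad (2 * k + 1) ∧ bad (2 * k + 3) := by
    intro k
    simp only [τ]
    by_cases h : bad (2 * k + 1)
    · rw [if_pos h]; simp [h]
    · rw [if_neg h]
      by_cases h' : bad (2 * k + 3)
      · rw [if_pos h']; simp [h, h']
      · rw [if_neg h']; simp [h']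
  have T0 : τ 0 ≠ 0 := by
    intro h
    rw [hτ0] at h
    exact hbad1 h
  have T1 : ∀ k, τ k = 1 → τ (k + 1) = 0 := by
    intro k hk
    rw [hτ1] at hk
    rw [hτ0]
    exact hk.2
  have T2 : ∀ k, τ (k + 1) = 0 → τ k = 1 := by
    intro k hk
    rw [hτ0] at hk
    rw [hτ1]
    exact ⟨fun h => hB1 _ h hk, hk⟩
  have key : ∀ k, k < m →
      1 ≤ pairLo τ k ∧ pairHi τ k < n ∧ pairLo τ k < pairHi τ k ∧
      ((((pairHi τ k : ℕ) : ZMod n) = ((pairLo τ k : ℕ) : ZMod n) + 1) ∨
        ((((pairHi τ k : ℕ) : ZMod n) = ((pairLo τ k : ℕ) : ZMod n) + 3) ∧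
          ((pairHi τ k : ℕ) : ZMod n) ∈ nonDiff n C)) ∧
      (((pairLo τ k : ℕ) : ZMod n) ∉ nonDiff n C ∨ ((pairHi τ k : ℕ) : ZMod n) ∉ nonDiff n C) := by
    intro k hk
    by_cases hb : bad (2 * k + 1)
    · have ht : τ k = 0 := (hτ0 k).mpr hb
      have hk1 : 1 ≤ k := by
        rcases Nat.eq_zero_or_pos k with h | h
        · subst h; exact absurd hb hbad1
        · exact h
      have hlo : pairLo τ k = 2 * k - 1 := by unfold pairLo; rw [if_pos ht]
      have hhi : pairHi τ k = 2 * k + 2 := by unfold pairHi; rw [hlo, if_pos ht]; omega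
      rw [hlo, hhi]
      refine ⟨by omega, by omega, by omega, Or.inr ⟨?_, hb.2⟩, Or.inl ?_⟩
      · have : 2 * k + 2 = (2 * k - 1) + 3 := by omega
        rw [this]; push_cast; ring
      · intro h
        apply hS1 _ h
        have : ((2 * k - 1 : ℕ) : ZMod n) + 2 = ((2 * k + 1 : ℕ) : ZMod n) := by
          have : 2 * k + 1 = (2 * k - 1) + 2 := by omega
          rw [this]; push_cast; ring
        rw [this]; exact hb.1
    · by_cases hb' : bad (2 * k + 3)
      · have ht : τ k = 1 := (hτ1 k).mpr ⟨hb, hb'⟩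
        have hlo : pairLo τ k = 2 * k + 2 := by unfold pairLo; rw [if_neg (by omega), if_pos ht]
        have hhi : pairHi τ k = 2 * k + 3 := by unfold pairHi; rw [hlo, if_neg (by omega)]
        have hne : 2 * k + 3 ≠ n := by
          intro h
          apply h0
          have := hb'.1
          rw [h] at this
          simpa using this
        rw [hlo, hhi]
        refine ⟨by omega, by omega, by omega, Or.inl ?_, Or.inl ?_⟩
        · push_cast; ring
        · intro h
          apply hS1 _ h
          have : ((2 * k + 2 : ℕ) : ZMod n) + 2 = ((2 * k + 3 + 1 : ℕ) : ZMod n) := by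
            push_cast; ring
          rw [this]; exact hb'.2
      · have ht : τ k = 2 := by simp only [τ]; rw [if_neg hb, if_neg hb']
        have hlo : pairLo τ k = 2 * k + 1 := by
          unfold pairLo; rw [if_neg (by omega), if_neg (by omega)]
        have hhi : pairHi τ k = 2 * k + 2 := by unfold pairHi; rw [hlo, if_neg (by omega)]
        rw [hlo, hhi]
        refine ⟨by omega, by omega, by omega, Or.inl ?_, ?_⟩
        · push_cast; ring
        · by_contra hcon
          simp only [not_or, not_not] at hcon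
          exact hb ⟨hcon.1, hcon.2⟩
  let B : ℕ → Set (ZMod n) := fun k =>
    if k = m then {0} else {((pairLo τ k : ℕ) : ZMod n), ((pairHi τ k : ℕ) : ZMod n)}
  have hmain : HasCliqueMinor (circulantGraph n C) (Finset.range (m + 1)).card := by
    refine hasCliqueMinor_of_finset (circulantGraph n C) (Finset.range (m + 1)) B ?_ ?_ ?_
    · intro k hk
      by_cases hkm : k = m
      · exact connected_congr _ (by simp only [B, if_pos hkm]) (induce_singleton_connected _ 0)
      · have hk' : k < m := by have := Finset.mem_range.mp hk; omega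
        obtain ⟨a1, a2, a3, a4, a5⟩ := key k hk'
        refine connected_congr _ (by simp only [B, if_neg hkm])
          (induce_pair_connected _ ((pairLo τ k : ℕ) : ZMod n) ((pairHi τ k : ℕ) : ZMod n) ?_)
        have hne : ((pairLo τ k : ℕ) : ZMod n) ≠ ((pairHi τ k : ℕ) : ZMod n) :=
          cast_ne_of_lt (by omega) a2 (by omega)
        by_contra hnadj
        rw [not_adj_iff C hne] at hnadj
        rcases a4 with h | ⟨h, _⟩
        · rw [h] at hnadj
          apply hm1
          simpa using hnadj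
        · rw [h] at hnadj
          apply h3
          have := nonDiff_neg hnadj
          simpa using this
    · intro k hk l hl hkl
      have hk'' := Finset.mem_range.mp hk
      have hl'' := Finset.mem_range.mp hl
      by_cases hkm : k = m
      · have hlm : l ≠ m := fun h => hkl (hkm.trans h.symm)
        have hl' : l < m := by omega
        obtain ⟨a1, a2, a3, a4, a5⟩ := key l hl'
        simp only [B, if_pos hkm, if_neg hlm]
        rw [Set.disjoint_left]
        intro v hv hv'
        rw [Set.mem_singleton_iff] at hv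
        subst hv
        rcases hv' with h | h
        · exact cast_ne_of_lt (n := n) (a := 0) (b := pairLo τ l) (by omega) (by omega) (by omega)
            (by simpa using h)
        · rw [Set.mem_singleton_iff] at h
          exact cast_ne_of_lt (n := n) (a := 0) (b := pairHi τ l) (by omega) (by omega) (by omega)
            (by simpa using h)
      · have hk' : k < m := by omega
        obtain ⟨a1, a2, a3, a4, a5⟩ := key k hk'
        by_cases hlm : l = m
        · simp only [B, if_neg hkm, if_pos hlm]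
          rw [Set.disjoint_right]
          intro v hv hv'
          rw [Set.mem_singleton_iff] at hv
          subst hv
          rcases hv' with h | h
          · exact cast_ne_of_lt (n := n) (a := 0) (b := pairLo τ k) (by omega) (by omega) (by omega)
              (by simpa using h)
          · rw [Set.mem_singleton_iff] at h
            exact cast_ne_of_lt (n := n) (a := 0) (b := pairHi τ k) (by omega) (by omega) (by omega)
              (by simpa using h)
        · have hl' : l < m := by omega
          obtain ⟨b1, b2, b3, b4, b5⟩ := key l hl'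
          obtain ⟨d1, d2, d3, d4⟩ := pair_disjoint τ T0 T1 T2 hkl
          simp only [B, if_neg hkm, if_neg hlm]
          rw [Set.disjoint_left]
          intro v hv hv'
          rcases hv with rfl | hv
          · rcases hv' with h | h
            · exact cast_ne_of_lt (by omega) (by omega) d1 h
            · rw [Set.mem_singleton_iff] at h
              exact cast_ne_of_lt (by omega) (by omega) d2 h
          · rw [Set.mem_singleton_iff] at hv
            subst hv
            rcases hv' with h | h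
            · exact cast_ne_of_lt (by omega) (by omega) d3 h
            · rw [Set.mem_singleton_iff] at h
              exact cast_ne_of_lt (by omega) (by omega) d4 h
    · intro k hk l hl hkl
      have hk'' := Finset.mem_range.mp hk
      have hl'' := Finset.mem_range.mp hl
      have hzero : ∀ j, j < m → ∃ x ∈ ({((pairLo τ j : ℕ) : ZMod n), ((pairHi τ j : ℕ) : ZMod n)} :
          Set (ZMod n)), (circulantGraph n C).Adj 0 x := by
        intro j hj
        obtain ⟨a1, a2, a3, a4, a5⟩ := key j hj
        rcases a5 with h | h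
        · refine ⟨_, Set.mem_insert _ _, ?_⟩
          have hne : (0 : ZMod n) ≠ ((pairLo τ j : ℕ) : ZMod n) := by
            have := cast_ne_of_lt (n := n) (a := 0) (b := pairLo τ j) (by omega) (by omega) (by omega)
            simpa using this
          by_contra hnadj
          rw [not_adj_iff C hne] at hnadj
          apply h
          have := nonDiff_neg hnadj
          simpa using this
        · refine ⟨_, Set.mem_insert_of_mem _ rfl, ?_⟩
          have hne : (0 : ZMod n) ≠ ((pairHi τ j : ℕ) : ZMod n) := by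
            have := cast_ne_of_lt (n := n) (a := 0) (b := pairHi τ j) (by omega) (by omega) (by omega)
            simpa using this
          by_contra hnadj
          rw [not_adj_iff C hne] at hnadj
          apply h
          have := nonDiff_neg hnadj
          simpa using this
      by_cases hkm : k = m
      · have hlm : l ≠ m := fun h => hkl (hkm.trans h.symm)
        have hl' : l < m := by omega
        simp only [B, if_pos hkm, if_neg hlm]
        obtain ⟨x, hx, hadj⟩ := hzero l hl'
        exact ⟨0, rfl, x, hx, hadj⟩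
      · have hk' : k < m := by omega
        by_cases hlm : l = m
        · simp only [B, if_neg hkm, if_pos hlm]
          obtain ⟨x, hx, hadj⟩ := hzero k hk'
          exact ⟨x, hx, 0, rfl, hadj.symm⟩
        · have hl' : l < m := by omega
          obtain ⟨a1, a2, a3, a4, a5⟩ := key k hk'
          obtain ⟨b1, b2, b3, b4, b5⟩ := key l hl'
          obtain ⟨d1, d2, d3, d4⟩ := pair_disjoint τ T0 T1 T2 hkl
          have e1 : ((pairLo τ k : ℕ) : ZMod n) ≠ ((pairLo τ l : ℕ) : ZMod n) :=
            cast_ne_of_lt (by omega) (by omega) d1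
          have e2 : ((pairLo τ k : ℕ) : ZMod n) ≠ ((pairHi τ l : ℕ) : ZMod n) :=
            cast_ne_of_lt (by omega) (by omega) d2
          have e3 : ((pairHi τ k : ℕ) : ZMod n) ≠ ((pairLo τ l : ℕ) : ZMod n) :=
            cast_ne_of_lt (by omega) (by omega) d3
          have e4 : ((pairHi τ k : ℕ) : ZMod n) ≠ ((pairHi τ l : ℕ) : ZMod n) :=
            cast_ne_of_lt (by omega) (by omega) d4
          simp only [B, if_neg hkm, if_neg hlm]
          rcases a4 with ha | ⟨ha, haS⟩ <;> rcases b4 with hb | ⟨hb, hbS⟩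
          · rw [ha, hb]
            rw [hb] at e2
            rw [ha] at e3
            exact adj_pairs_11 C hS1 _ _ e2 e3
          · rw [ha, hb]
            rw [ha, hb] at e4
            exact adj_pairs_13 C hS1 _ _ e1 e4
          · rw [ha, hb]
            rw [ha, hb] at e4
            exact adj_swap _ (adj_pairs_13 C hS1 _ _ e1.symm e4.symm)
          · rw [ha, hb]
            rw [ha] at haS
            rw [hb] at hbS
            rw [ha, hb] at e4
            exact adj_pairs_33 C hsub _ _ haS hbS e4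
  rwa [Finset.card_range] at hmain

end Vale.Agent.Lib.P060
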