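import Vale.Agent.Lib.P060.CircOdd

namespace Vale.Agent.Lib.P060

theorem odd_core_colorable (n m : ℕ) [NeZero n] (hn : n = 2 * m + 1) (C : Set (ZMod n))
    (h2 : (2 : ZMod n) ∈ nonDiff n C) : (circulantGraph n C).Colorable (m + 1) := by
  classical
  rw [SimpleGraph.colorable_iff_exists_bdd_nat_coloring]
  let hinv : ZMod n := ((m + 1 : ℕ) : ZMod n)
  have hhalf : (2 : ZMod n) * hinv = 1 := by
    have h1 : (2 : ZMod n) * hinv = ((n + 1 : ℕ) : ZMod n) := by
      have h' : n + 1 = 2 * (m + 1) := by omega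
      rw [h']
      simp only [hinv]
      push_cast
      ring
    rw [h1]
    push_cast
    simp
  have hdouble : ∀ z : ZMod n, z * hinv = 1 → z = 2 := by
    intro z hz
    calc z = z * (2 * hinv) := by rw [hhalf, mul_one]
      _ = 2 * (z * hinv) := by ring
      _ = 2 := by rw [hz, mul_one]
  have hm2 : (-2 : ZMod n) ∈ nonDiff n C := nonDiff_neg h2
  let col : ZMod n → ℕ := fun x => ((x * hinv).val + 1) / 2
  have hstep : ∀ x y : ZMod n, (y * hinv).val = (x * hinv).val + 1 → y - x = 2 := by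
    intro x y h
    apply hdouble
    have h1 : y * hinv = x * hinv + 1 := by
      have h3 := congrArg (Nat.cast : ℕ → ZMod n) h
      rw [Nat.cast_add, ZMod.natCast_zmod_val, ZMod.natCast_zmod_val, Nat.cast_one] at h3
      exact h3
    rw [sub_mul, h1]
    ring
  have hvalid : ∀ {x y : ZMod n}, (circulantGraph n C).Adj x y → col x ≠ col y := by
    intro x y hadj heq
    have hxy : x ≠ y := hadj.1
    simp only [col] at heq
    have hab : (x * hinv).val ≠ (y * hinv).val := by
      intro h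
      apply hxy
      have h1 : x * hinv = y * hinv := ZMod.val_injective n h
      calc x = x * (2 * hinv) := by rw [hhalf, mul_one]
        _ = 2 * (x * hinv) := by ring
        _ = 2 * (y * hinv) := by rw [h1]
        _ = y * (2 * hinv) := by ring
        _ = y := by rw [hhalf, mul_one]
    rcases Nat.lt_or_gt_of_ne hab with hlt | hgt
    · have hb1 : (y * hinv).val = (x * hinv).val + 1 := by omega
      have hd : y - x ∈ nonDiff n C := by rw [hstep x y hb1]; exact h2
      exact (not_adj_iff C hxy.symm).mpr hd hadj.symm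
    · have hb1 : (x * hinv).val = (y * hinv).val + 1 := by omega
      have hd : x - y ∈ nonDiff n C := by rw [hstep y x hb1]; exact h2
      exact (not_adj_iff C hxy).mpr hd hadj
  refine ⟨SimpleGraph.Coloring.mk col hvalid, ?_⟩
  intro v
  show col v < m + 1
  simp only [col]
  have := ZMod.val_lt (v * hinv)
  omega

theorem nonDiff_scale {n : ℕ} (C : Set (ZMod n)) (δ : ZMod n) (hδ : IsUnit δ) (d : ZMod n) :
    d ∈ nonDiff n {x | δ * x ∈ C} ↔ δ * d ∈ nonDiff n C := by
  unfold nonDiff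
  simp only [Set.mem_ofPred_eq, mul_neg]
  have h0 : δ * d ≠ 0 ↔ d ≠ 0 := not_congr hδ.mul_right_eq_zero
  rw [h0]

theorem adj_scale {n : ℕ} (C : Set (ZMod n)) (δ : ZMod n) (hδ : IsUnit δ) (x y : ZMod n) :
    (circulantGraph n {z | δ * z ∈ C}).Adj x y ↔ (circulantGraph n C).Adj (δ * x) (δ * y) := by
  show (x ≠ y ∧ (δ * (x - y) ∈ C ∨ δ * (y - x) ∈ C)) ↔
    (δ * x ≠ δ * y ∧ (δ * x - δ * y ∈ C ∨ δ * y - δ * x ∈ C))
  rw [mul_sub, mul_sub]
  have h0 : δ * x ≠ δ * y ↔ x ≠ y := not_congr hδ.mul_right_inj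
  rw [h0]

/-- Odd order: if some generator `δ` of `ZMod (2m+1)` has `2δ` a non-neighbour of `0` and `3δ` a
neighbour of `0`, then a circulant graph with independence number at most two has a complete
minor on `m+1` vertices and is `(m+1)`-colourable. -/
theorem circulant_odd_hadwiger (m : ℕ) (C : Set (ZMod (2 * m + 1)))
    (hα : (circulantGraph (2 * m + 1) C).indepNum ≤ 2)
    (δ : ZMod (2 * m + 1)) (hδ : IsUnit δ)
    (h2 : 2 * δ ≠ 0 ∧ ¬ (circulantGraph (2 * m + 1) C).Adj 0 (2 * δ))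
    (h3 : (circulantGraph (2 * m + 1) C).Adj 0 (3 * δ)) :
    HasCliqueMinor (circulantGraph (2 * m + 1) C) (m + 1) ∧
    ∀ t : ℕ, ¬ HasCliqueMinor (circulantGraph (2 * m + 1) C) (t + 1) →
      (circulantGraph (2 * m + 1) C).Colorable t := by
  have hS2 : 2 * δ ∈ nonDiff (2 * m + 1) C := by
    have h0 : (0 : ZMod (2 * m + 1)) ≠ 2 * δ := fun h => h2.1 h.symm
    have h1 := nonDiff_neg ((not_adj_iff C h0).mp h2.2)
    simpa using h1
  have hS3 : 3 * δ ∉ nonDiff (2 * m + 1) C := by
    intro h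
    have h0 : (0 : ZMod (2 * m + 1)) ≠ 3 * δ := fun h' => h.1 h'.symm
    refine (not_adj_iff C h0).mpr ?_ h3
    have h1 := nonDiff_neg h
    simpa using h1
  have hsf' : ∀ a b : ZMod (2 * m + 1), a ∈ nonDiff (2 * m + 1) {x | δ * x ∈ C} →
      b ∈ nonDiff (2 * m + 1) {x | δ * x ∈ C} → a + b ∉ nonDiff (2 * m + 1) {x | δ * x ∈ C} := by
    intro a b ha hb hab
    rw [nonDiff_scale C δ hδ] at ha hb hab
    rw [mul_add] at hab
    exact nonDiff_sumfree C hα ha hb hab
  have h2' : (2 : ZMod (2 * m + 1)) ∈ nonDiff (2 * m + 1) {x | δ * x ∈ C} := by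
    rw [nonDiff_scale C δ hδ, mul_comm δ 2]; exact hS2
  have h3' : (3 : ZMod (2 * m + 1)) ∉ nonDiff (2 * m + 1) {x | δ * x ∈ C} := by
    rw [nonDiff_scale C δ hδ, mul_comm δ 3]; exact hS3
  have hminor' := odd_core_minor (2 * m + 1) m rfl {x | δ * x ∈ C} hsf' h2' h3'
  have hcol' := odd_core_colorable (2 * m + 1) m rfl {x | δ * x ∈ C} h2'
  have hminor : HasCliqueMinor (circulantGraph (2 * m + 1) C) (m + 1) :=
    HasCliqueMinor.map (fun x => δ * x) (fun x y h => hδ.mul_right_inj.mp h)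
      (fun u v huv => (adj_scale C δ hδ u v).mp huv) hminor'
  have hcol : (circulantGraph (2 * m + 1) C).Colorable (m + 1) := by
    obtain ⟨ε, hε⟩ := hδ.exists_left_inv
    have hδε : δ * ε = 1 := by rw [mul_comm δ ε]; exact hε
    let f : circulantGraph (2 * m + 1) C →g circulantGraph (2 * m + 1) {x | δ * x ∈ C} :=
      { toFun := fun x => ε * x
        map_rel' := by
          intro x y hxy
          rw [adj_scale C δ hδ, ← mul_assoc, ← mul_assoc, hδε, one_mul, one_mul]
          exact hxy }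
    exact SimpleGraph.Colorable.of_hom f hcol'
  refine ⟨hminor, fun t ht => ?_⟩
  have hmt : m + 1 ≤ t := by
    by_contra h
    exact ht (hminor.mono (by omega))
  exact hcol.mono hmt

/-- Prime order: if the multiplicative closure of `1` under `x ↦ -x` and `x ↦ 3x/2` in `ZMod p` is
not sum-free, then every circulant graph of order `p` with independence number at most two
satisfies Hadwiger's conjecture. -/
theorem circulant_prime_hadwiger (p : ℕ) [Fact p.Prime] (hp : 5 ≤ p)
    (hM : ∀ T : Set (ZMod p), (1 : ZMod p) ∈ T → (∀ x ∈ T, -x ∈ T) →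
      (∀ x ∈ T, ∀ y : ZMod p, 2 * y = 3 * x → y ∈ T) → ∃ a ∈ T, ∃ b ∈ T, a + b ∈ T)
    (C : Set (ZMod p)) (hα : (circulantGraph p C).indepNum ≤ 2) :
    ∀ t : ℕ, ¬ HasCliqueMinor (circulantGraph p C) (t + 1) →
      (circulantGraph p C).Colorable t := by
  classical
  have hprime : p.Prime := Fact.out
  have hodd : ∃ m, p = 2 * m + 1 := by
    rcases hprime.eq_two_or_odd with h | h
    · omega
    · exact ⟨p / 2, by omega⟩
  obtain ⟨m, rfl⟩ := hodd
  have h3ne : (3 : ZMod (2 * m + 1)) ≠ 0 := by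
    intro h
    have h' : ((3 : ℕ) : ZMod (2 * m + 1)) = 0 := by exact_mod_cast h
    rw [ZMod.natCast_eq_zero_iff] at h'
    have := Nat.le_of_dvd (by norm_num) h'
    omega
  by_cases hS : ∃ s, s ∈ nonDiff (2 * m + 1) C
  · obtain ⟨s, hs⟩ := hS
    have hs0 : s ≠ 0 := hs.1
    by_cases hclosed : ∀ x ∈ {x : ZMod (2 * m + 1) | s * x ∈ nonDiff (2 * m + 1) C},
        ∀ y : ZMod (2 * m + 1), 2 * y = 3 * x →
          y ∈ {x : ZMod (2 * m + 1) | s * x ∈ nonDiff (2 * m + 1) C}
    · exfalso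
      have h1T : (1 : ZMod (2 * m + 1)) ∈ {x : ZMod (2 * m + 1) | s * x ∈ nonDiff (2 * m + 1) C} := by
        show s * 1 ∈ nonDiff (2 * m + 1) C
        rw [mul_one]; exact hs
      have hnegT : ∀ x ∈ {x : ZMod (2 * m + 1) | s * x ∈ nonDiff (2 * m + 1) C},
          -x ∈ {x : ZMod (2 * m + 1) | s * x ∈ nonDiff (2 * m + 1) C} := by
        intro x hx
        show s * -x ∈ nonDiff (2 * m + 1) C
        rw [mul_neg]
        exact nonDiff_neg hx
      obtain ⟨a, ha, b, hb, hab⟩ := hM _ h1T hnegT hclosed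
      have hab' : s * a + s * b ∈ nonDiff (2 * m + 1) C := by rw [← mul_add]; exact hab
      exact nonDiff_sumfree C hα ha hb hab'
    · simp only [not_forall] at hclosed
      obtain ⟨x, hx, y, hy, hyT⟩ := hclosed
      have hx' : s * x ∈ nonDiff (2 * m + 1) C := hx
      have hyT' : s * y ∉ nonDiff (2 * m + 1) C := hyT
      have h2δ : 2 * (s * (y - x)) = s * x := by linear_combination s * hy
      have h3δ : 3 * (s * (y - x)) = s * y := by linear_combination s * hy
      have hδ0 : s * (y - x) ≠ 0 := by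
        intro h
        apply hx'.1
        rw [← h2δ, h, mul_zero]
      have hδ : IsUnit (s * (y - x)) := isUnit_iff_ne_zero.mpr hδ0
      have hsy0 : s * y ≠ 0 := by
        rw [← h3δ]
        exact mul_ne_zero h3ne hδ0
      refine (circulant_odd_hadwiger m C hα (s * (y - x)) hδ ⟨?_, ?_⟩ ?_).2
      · rw [h2δ]; exact hx'.1
      · rw [h2δ]
        have h0 : (0 : ZMod (2 * m + 1)) ≠ s * x := fun h => hx'.1 h.symm
        refine (not_adj_iff C h0).mpr ?_
        have h1 := nonDiff_neg hx'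
        simpa using h1
      · rw [h3δ]
        have h0 : (0 : ZMod (2 * m + 1)) ≠ s * y := fun h => hsy0 h.symm
        by_contra hnadj
        apply hyT'
        have h1 := nonDiff_neg ((not_adj_iff C h0).mp hnadj)
        simpa using h1
  · simp only [not_exists] at hS
    have hcomplete : ∀ x y : ZMod (2 * m + 1), x ≠ y → (circulantGraph (2 * m + 1) C).Adj x y := by
      intro x y hxy
      by_contra h
      exact hS _ ((not_adj_iff C hxy).mp h)
    intro t ht
    have hminor : HasCliqueMinor (circulantGraph (2 * m + 1) C)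
        (Finset.univ : Finset (ZMod (2 * m + 1))).card :=
      hasCliqueMinor_of_finset _ Finset.univ (fun x => {x})
        (fun x _ => induce_singleton_connected _ x)
        (fun x _ y _ hxy => by simpa using hxy)
        (fun x _ y _ hxy => ⟨x, rfl, y, rfl, hcomplete x y hxy⟩)
    rw [Finset.card_univ, ZMod.card] at hminor
    have hle : 2 * m + 1 ≤ t := by
      by_contra h
      exact ht (hminor.mono (by omega))
    have hc := SimpleGraph.colorable_of_fintype (circulantGraph (2 * m + 1) C)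
    rw [ZMod.card] at hc
    exact hc.mono hle

/-- If `2 ^ (k+1) = ± 3 ^ k` in `ZMod p` (`p ≥ 5` prime), then every set of residues containing `1`
and closed under `x ↦ -x` and `x ↦ 3x/2` contains `1 + 1`. -/
theorem closure_of_pow (p : ℕ) [Fact p.Prime] (hp : 5 ≤ p) (k : ℕ)
    (hk : (2 : ZMod p) ^ (k + 1) = 3 ^ k ∨ (2 : ZMod p) ^ (k + 1) = -3 ^ k)
    (T : Set (ZMod p)) (h1 : (1 : ZMod p) ∈ T) (hneg : ∀ x ∈ T, -x ∈ T)
    (hcl : ∀ x ∈ T, ∀ y : ZMod p, 2 * y = 3 * x → y ∈ T) : ∃ a ∈ T, ∃ b ∈ T, a + b ∈ T := by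
  have h2ne : (2 : ZMod p) ≠ 0 := by
    intro h
    have h' : ((2 : ℕ) : ZMod p) = 0 := by exact_mod_cast h
    rw [ZMod.natCast_eq_zero_iff] at h'
    have := Nat.le_of_dvd (by norm_num) h'
    omega
  have h2u : (2 : ZMod p) * (3 * 2⁻¹) = 3 := by
    rw [mul_comm, mul_assoc, inv_mul_cancel₀ h2ne, mul_one]
  have hpow : ∀ j : ℕ, (3 * (2 : ZMod p)⁻¹) ^ j ∈ T := by
    intro j
    induction j with
    | zero => simpa using h1
    | succ j ih =>
      refine hcl _ ih _ ?_
      rw [pow_succ]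
      linear_combination (3 * (2 : ZMod p)⁻¹) ^ j * h2u
  have hexp : (3 : ZMod p) ^ k = 2 ^ k * (3 * 2⁻¹) ^ k := by
    rw [← mul_pow, h2u]
  have h2k : (2 : ZMod p) ^ k ≠ 0 := pow_ne_zero k h2ne
  have htwo : (2 : ZMod p) ∈ T := by
    rcases hk with hk | hk
    · have : (2 : ZMod p) = (3 * 2⁻¹) ^ k := by
        apply mul_left_cancel₀ h2k
        rw [← hexp, ← hk, pow_succ]
      rw [this]; exact hpow k
    · have : (2 : ZMod p) = -(3 * 2⁻¹) ^ k := by
        apply mul_left_cancel₀ h2k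
        rw [mul_neg, ← hexp, ← hk, pow_succ]
      rw [this]; exact hneg _ (hpow k)
  refine ⟨1, h1, 1, h1, ?_⟩
  have : (1 : ZMod p) + 1 = 2 := by norm_num
  rw [this]; exact htwo

end Vale.Agent.Lib.P060
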