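import Vale.Agent.Lib.P060.CircDefs
import Vale.Agent.Lib.P060.AlphaTwo

namespace Vale.Agent.Lib.P060

/-- The differences of distinct non-adjacent pairs of the circulant graph with connection set `C`. -/
def nonDiff (n : ℕ) (C : Set (ZMod n)) : Set (ZMod n) := {d | d ≠ 0 ∧ d ∉ C ∧ -d ∉ C}

theorem nonDiff_neg {n : ℕ} {C : Set (ZMod n)} {d : ZMod n} (h : d ∈ nonDiff n C) :
    -d ∈ nonDiff n C := by
  obtain ⟨h0, h1, h2⟩ := h
  exact ⟨neg_ne_zero.mpr h0, h2, by simpa using h1⟩

theorem not_adj_iff {n : ℕ} (C : Set (ZMod n)) {x y : ZMod n} (hxy : x ≠ y) :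
    ¬ (circulantGraph n C).Adj x y ↔ x - y ∈ nonDiff n C := by
  constructor
  · intro h
    refine ⟨sub_ne_zero.mpr hxy, fun h1 => h ⟨hxy, Or.inl h1⟩, fun h1 => h ⟨hxy, Or.inr ?_⟩⟩
    simpa using h1
  · rintro ⟨_, h1, h2⟩ ⟨_, h3 | h3⟩
    · exact h1 h3
    · exact h2 (by simpa using h3)

theorem nonDiff_sumfree {n : ℕ} [NeZero n] (C : Set (ZMod n))
    (hα : (circulantGraph n C).indepNum ≤ 2) {a b : ZMod n}
    (ha : a ∈ nonDiff n C) (hb : b ∈ nonDiff n C) : a + b ∉ nonDiff n C := by
  intro hab
  have h0a : (0 : ZMod n) ≠ a := fun h => ha.1 h.symm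
  have haab : a ≠ a + b := fun h => hb.1 (by simpa using h.symm)
  have h0ab : (0 : ZMod n) ≠ a + b := fun h => hab.1 h.symm
  rcases no_indep_triple _ hα 0 a (a + b) h0a haab h0ab with h | h | h
  · exact (not_adj_iff C h0a).mpr (by simpa using nonDiff_neg ha) h
  · exact (not_adj_iff C haab).mpr (by simpa using nonDiff_neg hb) h
  · exact (not_adj_iff C h0ab).mpr (by simpa using nonDiff_neg hab) h

theorem val_add_mod_two {m : ℕ} [NeZero (2 * m)] (x y : ZMod (2 * m)) :
    (x + y).val % 2 = (x.val + y.val) % 2 := by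
  rw [ZMod.val_add, Nat.mod_mod_of_dvd _ (dvd_mul_right 2 m)]

theorem bit_flip {n : ℕ} [NeZero n] (k : ℕ) (hk : 2 ^ (k + 1) ∣ n) (a : ZMod n)
    (ha : a.val % 2 ^ (k + 1) = 2 ^ k) (x : ZMod n) :
    (x + a).val % 2 ^ (k + 1) < 2 ^ k ↔ ¬ (x.val % 2 ^ (k + 1) < 2 ^ k) := by
  rw [ZMod.val_add, Nat.mod_mod_of_dvd _ hk, Nat.add_mod, ha]
  have hr : x.val % 2 ^ (k + 1) < 2 ^ (k + 1) := Nat.mod_lt _ (by positivity)
  generalize x.val % 2 ^ (k + 1) = r at hr ⊢
  have hP : 2 ^ (k + 1) = 2 * 2 ^ k := by ring
  rw [hP] at hr ⊢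
  generalize 2 ^ k = P at hr ⊢
  by_cases hrP : r < P
  · rw [Nat.mod_eq_of_lt (by omega)]
    omega
  · rw [Nat.mod_eq_sub_mod (by omega), Nat.mod_eq_of_lt (by omega)]
    omega

theorem card_of_flip {n : ℕ} [NeZero n] (a : ZMod n) (A : Finset (ZMod n))
    (hA : ∀ x, x + a ∈ A ↔ x ∉ A) : 2 * A.card = n := by
  classical
  have himg : A.image (fun x => x + a) = Aᶜ := by
    ext y
    simp only [Finset.mem_image, Finset.mem_compl]
    constructor
    · rintro ⟨x, hx, rfl⟩ h
      exact (hA x).mp h hx
    · intro hy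
      refine ⟨y - a, ?_, by ring⟩
      by_contra hcon
      have := (hA (y - a)).mpr hcon
      rw [sub_add_cancel] at this
      exact hy this
  have hcard : (A.image (fun x => x + a)).card = A.card :=
    Finset.card_image_of_injective _ (fun x y h => by simpa using h)
  rw [himg, Finset.card_compl, ZMod.card] at hcard
  have := Finset.card_le_univ A
  rw [ZMod.card] at this
  omega

theorem exists_half {m : ℕ} [NeZero (2 * m)] (s : ZMod (2 * m)) (hs0 : s ≠ 0)
    (hse : Even s.val) :
    ∃ a : ZMod (2 * m), a + a = s ∧ ∃ k, 2 ^ (k + 1) ∣ 2 * m ∧ a.val % 2 ^ (k + 1) = 2 ^ k := by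
  obtain ⟨b, hb⟩ := hse
  have hm : m ≠ 0 := by
    intro h
    have := NeZero.ne (2 * m)
    omega
  have hslt : s.val < 2 * m := ZMod.val_lt s
  have hb0 : b ≠ 0 := by
    intro h
    apply hs0
    have : s.val = 0 := by omega
    exact (ZMod.val_eq_zero s).mp this
  have hbm : b < m := by omega
  obtain ⟨w, p, hp, hbw⟩ := Nat.exists_eq_two_pow_mul_odd hb0
  obtain ⟨e, q, hq, hme⟩ := Nat.exists_eq_two_pow_mul_odd hm
  have hcast : ((b + b : ℕ) : ZMod (2 * m)) = s := by
    rw [← hb, ZMod.natCast_zmod_val]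
  by_cases hwe : w ≤ e
  · refine ⟨(b : ZMod (2 * m)), ?_, w, ?_, ?_⟩
    · rw [← Nat.cast_add]; exact hcast
    · rw [hme]
      obtain ⟨c, hc⟩ := pow_dvd_pow 2 hwe
      exact ⟨c * q, by rw [hc]; ring⟩
    · rw [ZMod.val_natCast_of_lt (by omega), hbw, pow_succ, Nat.mul_mod_mul_left]
      obtain ⟨j, hj⟩ := hp
      have : p % 2 = 1 := by omega
      rw [this, mul_one]
  · have hwe' : e < w := by omega
    refine ⟨((b + m : ℕ) : ZMod (2 * m)), ?_, e, ?_, ?_⟩
    · rw [← Nat.cast_add]
      have : b + m + (b + m) = (b + b) + 2 * m := by ring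
      rw [this, Nat.cast_add, hcast, ZMod.natCast_self, add_zero]
    · rw [hme]
      exact ⟨q, by ring⟩
    · rw [ZMod.val_natCast_of_lt (by omega)]
      obtain ⟨c, hc⟩ := pow_dvd_pow 2 (show e + 1 ≤ w by omega)
      have hsum : b + m = 2 ^ e * (2 * (c * p) + q) := by
        have h1 : b = 2 ^ (e + 1) * c * p := by rw [hbw, hc]
        have h2 : b + m = 2 ^ (e + 1) * c * p + 2 ^ e * q := by rw [h1, ← hme]
        rw [h2]
        ring
      rw [hsum, pow_succ, Nat.mul_mod_mul_left]
      obtain ⟨j, hj⟩ := hq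
      have : (2 * (c * p) + q) % 2 = 1 := by omega
      rw [this, mul_one]

theorem circulant_even_minor (m : ℕ) (hm : 1 ≤ m) (C : Set (ZMod (2 * m)))
    (hα : (circulantGraph (2 * m) C).indepNum ≤ 2) :
    HasCliqueMinor (circulantGraph (2 * m) C) m := by
  classical
  have : NeZero (2 * m) := ⟨by omega⟩
  have hα' := no_indep_triple (circulantGraph (2 * m) C) hα
  by_cases hcase : ∃ s ∈ nonDiff (2 * m) C, Even s.val
  · obtain ⟨s, hs, hse⟩ := hcase
    obtain ⟨a, haa, k, hk, hak⟩ := exists_half s hs.1 hse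
    let A : Finset (ZMod (2 * m)) := Finset.univ.filter (fun x => x.val % 2 ^ (k + 1) < 2 ^ k)
    have hflip : ∀ x, x + a ∈ A ↔ x ∉ A := by
      intro x
      simp only [A, Finset.mem_filter, Finset.mem_univ, true_and]
      exact bit_flip k hk a hak x
    have hcard : 2 * A.card = 2 * m := card_of_flip a A hflip
    have hAm : A.card = m := by omega
    refine HasCliqueMinor.mono (s := A.card) ?_ (by omega)
    refine hasCliqueMinor_of_shift (circulantGraph (2 * m) C) hα' (fun x => x + a) ?_ ?_ A ?_ ?_
    · intro x y hxy hnadj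
      have hne : x + a ≠ y + a := fun h => hxy (add_right_cancel h)
      refine ⟨hne, ?_⟩
      rw [not_adj_iff C hne]
      rw [not_adj_iff C hxy] at hnadj
      simpa using hnadj
    · intro x
      have hd : x - (x + a + a) ∈ nonDiff (2 * m) C := by
        have : x - (x + a + a) = -s := by rw [← haa]; ring
        rw [this]; exact nonDiff_neg hs
      have hne : x ≠ x + a + a := by
        intro h
        apply hd.1
        rw [sub_eq_zero]; exact h
      exact ⟨hne, (not_adj_iff C hne).mpr hd⟩
    · intro x hx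
      exact fun h => ((hflip x).mp h) hx
    · intro x _ y _ h
      exact add_right_cancel h
  · simp only [not_exists, not_and] at hcase
    have h1 : (1 : ZMod (2 * m)).val % 2 ^ (0 + 1) = 2 ^ 0 := by
      rw [ZMod.val_one_eq_one_mod]
      have : 1 % (2 * m) = 1 := Nat.mod_eq_of_lt (by omega)
      rw [this]; rfl
    let A : Finset (ZMod (2 * m)) := Finset.univ.filter (fun x => x.val % 2 ^ (0 + 1) < 2 ^ 0)
    have hflip : ∀ x, x + 1 ∈ A ↔ x ∉ A := by
      intro x
      simp only [A, Finset.mem_filter, Finset.mem_univ, true_and]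
      exact bit_flip 0 (by simp) 1 h1 x
    have hcard : 2 * A.card = 2 * m := card_of_flip 1 A hflip
    have hAm : A.card = m := by omega
    have hmemA : ∀ x ∈ A, x.val % 2 = 0 := by
      intro x hx
      have := (Finset.mem_filter.mp hx).2
      simpa using this
    refine HasCliqueMinor.mono (s := A.card) ?_ (by omega)
    refine hasCliqueMinor_of_finset (circulantGraph (2 * m) C) A (fun x => {x})
      (fun x _ => induce_singleton_connected _ x) ?_ ?_
    · intro x _ y _ hxy
      simpa using hxy
    · intro x hx y hy hxy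
      refine ⟨x, rfl, y, rfl, ?_⟩
      by_contra hnadj
      rw [not_adj_iff C hxy] at hnadj
      have hodd := hcase _ hnadj
      have hx' := hmemA x hx
      have hy' := hmemA y hy
      have hsum := val_add_mod_two (x - y) y
      rw [sub_add_cancel] at hsum
      rw [Nat.even_iff] at hodd
      omega

theorem circulant_even_colorable (m : ℕ) (hm : 1 ≤ m) (C : Set (ZMod (2 * m)))
    (hconn : (circulantGraph (2 * m) C)ᶜ.Connected) :
    (circulantGraph (2 * m) C).Colorable m := by
  classical
  have : NeZero (2 * m) := ⟨by omega⟩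
  have hodd : ∃ s ∈ nonDiff (2 * m) C, s.val % 2 = 1 := by
    by_contra hcon
    simp only [not_exists, not_and] at hcon
    have hpar : ∀ x y : ZMod (2 * m), (circulantGraph (2 * m) C)ᶜ.Adj x y →
        x.val % 2 = y.val % 2 := by
      intro x y hxy
      rw [SimpleGraph.compl_adj] at hxy
      have hd := (not_adj_iff C hxy.1).mp hxy.2
      have h0 := hcon _ hd
      have hsum := val_add_mod_two (x - y) y
      rw [sub_add_cancel] at hsum
      omega
    have h01 := const_of_reachable _ (fun x : ZMod (2 * m) => x.val % 2) hpar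
      (hconn.preconnected 0 1)
    simp only [ZMod.val_zero] at h01
    rw [ZMod.val_one_eq_one_mod, Nat.mod_eq_of_lt (by omega : 1 < 2 * m)] at h01
    omega
  obtain ⟨s, hs, hsodd⟩ := hodd
  have hshift : ∀ x : ZMod (2 * m), x.val % 2 = ((x - s).val + s.val) % 2 := by
    intro x
    have hsum := val_add_mod_two (x - s) s
    rw [sub_add_cancel] at hsum
    exact hsum
  rw [SimpleGraph.colorable_iff_exists_bdd_nat_coloring]
  let col : ZMod (2 * m) → ℕ := fun x => if x.val % 2 = 0 then x.val / 2 else (x - s).val / 2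
  have hvalid : ∀ {x y : ZMod (2 * m)}, (circulantGraph (2 * m) C).Adj x y → col x ≠ col y := by
    intro x y hadj heq
    have hxy : x ≠ y := hadj.1
    have hsx := hshift x
    have hsy := hshift y
    simp only [col] at heq
    by_cases hx : x.val % 2 = 0 <;> by_cases hy : y.val % 2 = 0
    · rw [if_pos hx, if_pos hy] at heq
      apply hxy
      apply ZMod.val_injective
      omega
    · rw [if_pos hx, if_neg hy] at heq
      have hval : x.val = (y - s).val := by omega
      have hxs : x = y - s := ZMod.val_injective _ hval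
      rcases hadj.2 with h | h
      · apply hs.2.2
        have : x - y = -s := by rw [hxs]; ring
        rw [← this]; exact h
      · apply hs.2.1
        have : y - x = s := by rw [hxs]; ring
        rw [← this]; exact h
    · rw [if_neg hx, if_pos hy] at heq
      have hval : (x - s).val = y.val := by omega
      have hxs : x - s = y := ZMod.val_injective _ hval
      rcases hadj.2 with h | h
      · apply hs.2.1
        have : x - y = s := by rw [← hxs]; ring
        rw [← this]; exact h
      · apply hs.2.2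
        have : y - x = -s := by rw [← hxs]; ring
        rw [← this]; exact h
    · rw [if_neg hx, if_neg hy] at heq
      apply hxy
      have hval : (x - s).val = (y - s).val := by omega
      have := ZMod.val_injective _ hval
      exact sub_left_injective this
  refine ⟨SimpleGraph.Coloring.mk col hvalid, ?_⟩
  intro v
  show col v < m
  simp only [col]
  have h1 := ZMod.val_lt v
  have h2 := ZMod.val_lt (v - s)
  split_ifs <;> omega

theorem circulant_even_hadwiger (m : ℕ) (hm : 1 ≤ m) (C : Set (ZMod (2 * m)))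
    (hα : (circulantGraph (2 * m) C).indepNum ≤ 2) :
    HasCliqueMinor (circulantGraph (2 * m) C) m ∧
    ((circulantGraph (2 * m) C)ᶜ.Connected →
      ∀ t : ℕ, ¬ HasCliqueMinor (circulantGraph (2 * m) C) (t + 1) →
        (circulantGraph (2 * m) C).Colorable t) := by
  refine ⟨circulant_even_minor m hm C hα, fun hconn t ht => ?_⟩
  have hcol := circulant_even_colorable m hm C hconn
  have hmt : m ≤ t := by
    by_contra h
    exact ht ((circulant_even_minor m hm C hα).mono (by omega))
  exact hcol.mono hmt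

end Vale.Agent.Lib.P060
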