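import Vale.Agent.Lib.P060.Schrijver

namespace Vale.Agent.Lib.P060

open Finset


/-- The Kneser graph `KG(n,k)` has a complete minor on `n - 2k + 2` vertices. -/
theorem kneser_minor (n k : ℕ) (hk : 1 ≤ k) (hn : 2 * k ≤ n) :
    HasCliqueMinor (kneserGraph n k) (n - 2 * k + 2) := by
  refine HasCliqueMinor.map
    (fun S : {S : Finset ℕ // IsStable n k S} =>
      (⟨S.1.attachFin S.2.2.1, by rw [card_attachFin]; exact S.2.1⟩ :
        {S : Finset (Fin n) // S.card = k})) ?_ ?_ (schrijver_minor n k hk hn)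
  · intro S T e
    have e' : S.1.attachFin S.2.2.1 = T.1.attachFin T.2.2.1 := by
      simpa using congrArg Subtype.val e
    apply Subtype.ext
    ext x
    constructor
    · intro hx
      have h1 : (⟨x, S.2.2.1 x hx⟩ : Fin n) ∈ S.1.attachFin S.2.2.1 := (mem_attachFin _).2 hx
      rw [e'] at h1
      exact (mem_attachFin _).1 h1
    · intro hx
      have h1 : (⟨x, T.2.2.1 x hx⟩ : Fin n) ∈ T.1.attachFin T.2.2.1 := (mem_attachFin _).2 hx
      rw [← e'] at h1
      exact (mem_attachFin _).1 h1
  · intro S T hST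
    have hd : Disjoint (S.1.attachFin S.2.2.1) (T.1.attachFin T.2.2.1) := by
      rw [disjoint_left]
      intro a ha ha'
      exact disjoint_left.1 hST.2 ((mem_attachFin _).1 ha) ((mem_attachFin _).1 ha')
    refine ⟨?_, hd⟩
    intro e
    have e' : S.1.attachFin S.2.2.1 = T.1.attachFin T.2.2.1 := by
      simpa using congrArg Subtype.val e
    have hne : (S.1.attachFin S.2.2.1).Nonempty :=
      card_pos.1 (by rw [card_attachFin, S.2.1]; omega)
    obtain ⟨z, hz⟩ := hne
    exact disjoint_left.1 hd hz (e' ▸ hz)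

/-- The Kneser graph `KG(n,k)` is `(n - 2k + 2)`-colourable. -/
theorem kneser_colorable (n k : ℕ) (hk : 1 ≤ k) (hn : 2 * k ≤ n) :
    (kneserGraph n k).Colorable (n - 2 * k + 2) := by
  have hne : ∀ S : {S : Finset (Fin n) // S.card = k}, S.1.Nonempty := fun S =>
    card_pos.1 (by rw [S.2]; omega)
  refine ⟨SimpleGraph.Coloring.mk
    (fun S => ⟨min (S.1.min' (hne S)).val (n - 2 * k + 1), by
      have := min_le_right (S.1.min' (hne S)).val (n - 2 * k + 1); omega⟩) ?_⟩
  intro S T hST e
  have e' : min (S.1.min' (hne S)).val (n - 2 * k + 1)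
      = min (T.1.min' (hne T)).val (n - 2 * k + 1) := congrArg Fin.val e
  have hSm := min'_mem S.1 (hne S)
  have hTm := min'_mem T.1 (hne T)
  by_cases hlt : (S.1.min' (hne S)).val < n - 2 * k + 1
  · have : S.1.min' (hne S) = T.1.min' (hne T) := by
      rw [min_eq_left hlt.le] at e'
      rcases le_total (T.1.min' (hne T)).val (n - 2 * k + 1) with h | h
      · rw [min_eq_left h] at e'; exact Fin.ext e'
      · rw [min_eq_right h] at e'; omega
    exact disjoint_left.1 hST.2 hSm (this ▸ hTm)
  · have hS' : n - 2 * k + 1 ≤ (S.1.min' (hne S)).val := by omega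
    have hT' : n - 2 * k + 1 ≤ (T.1.min' (hne T)).val := by
      rw [min_eq_right hS'] at e'
      by_contra hcon
      rw [min_eq_left (by omega)] at e'
      omega
    have hsub : (S.1 ∪ T.1).map Fin.valEmbedding ⊆ Ico (n - 2 * k + 1) n := by
      intro x hx
      obtain ⟨a, ha, rfl⟩ := mem_map.1 hx
      rcases mem_union.1 ha with h | h
      · exact mem_Ico.2 ⟨hS'.trans (Fin.le_def.1 (min'_le _ _ h)), a.2⟩
      · exact mem_Ico.2 ⟨hT'.trans (Fin.le_def.1 (min'_le _ _ h)), a.2⟩
    have hcard := card_le_card hsub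
    rw [card_map, card_union_of_disjoint hST.2, S.2, T.2, Nat.card_Ico] at hcard
    omega

/-- Hadwiger's conjecture holds for Kneser graphs. -/
theorem kneser_hadwiger (n k : ℕ) (hk : 1 ≤ k) (hn : 2 * k ≤ n) (t : ℕ)
    (h : ¬ HasCliqueMinor (kneserGraph n k) (t + 1)) : (kneserGraph n k).Colorable t := by
  have hle : n - 2 * k + 2 ≤ t := by
    by_contra hcon
    exact h ((kneser_minor n k hk hn).mono (by omega))
  exact (kneser_colorable n k hk hn).mono hle

end Vale.Agent.Lib.P060
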