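import Vale.Agent.Lib.P060.Defs

namespace Vale.Agent.Lib.P060


theorem HasCliqueMinor.mono {V : Type*} {G : SimpleGraph V} {s t : ℕ}
    (h : HasCliqueMinor G s) (hts : t ≤ s) : HasCliqueMinor G t := by
  obtain ⟨B, h1, h2, h3⟩ := h
  refine ⟨fun i => B (Fin.castLE hts i), fun i => h1 _, fun i j hij => h2 _ _ ?_,
    fun i j hij => h3 _ _ ?_⟩
  · intro h; exact hij (Fin.castLE_injective hts h)
  · intro h; exact hij (Fin.castLE_injective hts h)

theorem induce_connected_of_reach {V : Type*} (G : SimpleGraph V) (s : Set V) (a : V)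
    (ha : a ∈ s)
    (h : ∀ v ∈ s, Relation.ReflTransGen (fun x y => x ∈ s ∧ y ∈ s ∧ G.Adj x y) a v) :
    (G.induce s).Connected := by
  have key : ∀ v, Relation.ReflTransGen (fun x y => x ∈ s ∧ y ∈ s ∧ G.Adj x y) a v →
      ∀ hv : v ∈ s, (G.induce s).Reachable ⟨a, ha⟩ ⟨v, hv⟩ := by
    intro v hv
    induction hv with
    | refl => intro _; exact SimpleGraph.Reachable.refl _
    | tail hab hbc ih =>
      intro hc
      have h1 := ih hbc.1
      exact h1.trans (SimpleGraph.Adj.reachable (by simpa using hbc.2.2))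
  have : Nonempty s := ⟨⟨a, ha⟩⟩
  refine ⟨fun u v => ?_⟩
  exact ((key u.1 (h u.1 u.2) u.2).symm).trans (key v.1 (h v.1 v.2) v.2)

theorem induce_singleton_connected {V : Type*} (G : SimpleGraph V) (a : V) :
    (G.induce ({a} : Set V)).Connected := by
  refine induce_connected_of_reach G {a} a rfl ?_
  intro v hv
  rw [Set.mem_singleton_iff] at hv
  subst hv
  exact Relation.ReflTransGen.refl

theorem connected_congr {V : Type*} (G : SimpleGraph V) {s s' : Set V} (h : s = s')
    (hs : (G.induce s).Connected) : (G.induce s').Connected := by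
  subst h; exact hs

theorem hasCliqueMinor_two_of_adj {V : Type*} (G : SimpleGraph V) (a b : V) (hab : G.Adj a b) :
    HasCliqueMinor G 2 := by
  refine ⟨fun i => if i = 0 then {a} else {b}, ?_, ?_, ?_⟩
  · intro i
    by_cases hi : i = 0
    · exact connected_congr G (by simp [hi]) (induce_singleton_connected G a)
    · exact connected_congr G (by simp [hi]) (induce_singleton_connected G b)
  · intro i j hij
    have hne : a ≠ b := hab.ne
    by_cases hi : i = 0
    · have hj : j ≠ 0 := fun h => hij (hi.trans h.symm)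
      simp only [hi, hj, if_true, if_false]
      simpa using hne
    · have hj : j = 0 := by
        fin_cases i <;> fin_cases j <;> simp_all
      simp only [hi, hj, if_true, if_false]
      simpa using hne.symm
  · intro i j hij
    by_cases hi : i = 0
    · have hj : j ≠ 0 := fun h => hij (hi.trans h.symm)
      simp only [hi, hj, if_true, if_false]
      exact ⟨a, rfl, b, rfl, hab⟩
    · have hj : j = 0 := by
        fin_cases i <;> fin_cases j <;> simp_all
      simp only [hi, hj, if_true, if_false]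
      exact ⟨b, rfl, a, rfl, hab.symm⟩

theorem HasCliqueMinor.extend {V W : Type*} {G : SimpleGraph V} {H : SimpleGraph W} {t : ℕ}
    (f : V → W) (hf : Function.Injective f) (hadj : ∀ u v, G.Adj u v → H.Adj (f u) (f v))
    (N : Set W) (hN : (H.induce N).Connected) (hdisj : ∀ v, f v ∉ N)
    (hdom : ∀ v, ∃ w ∈ N, H.Adj (f v) w)
    (h : HasCliqueMinor G t) : HasCliqueMinor H (t + 1) := by
  obtain ⟨B, h1, h2, h3⟩ := h
  have himg : ∀ i, (H.induce (f '' B i)).Connected := by
    intro i
    let g : G.induce (B i) →g H.induce (f '' B i) :=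
      { toFun := fun x => ⟨f x.1, Set.mem_image_of_mem f x.2⟩
        map_rel' := by
          intro x y hxy
          exact hadj _ _ hxy }
    refine (h1 i).map g ?_
    rintro ⟨w, v, hv, rfl⟩
    exact ⟨⟨v, hv⟩, rfl⟩
  let B' : Fin (t + 1) → Set W := fun i => if h : i.val < t then f '' B ⟨i.val, h⟩ else N
  have hB'lt : ∀ (i : Fin (t + 1)) (h : i.val < t), B' i = f '' B ⟨i.val, h⟩ := by
    intro i h; simp only [B', h, dif_pos]
  have hB'ge : ∀ (i : Fin (t + 1)), ¬ i.val < t → B' i = N := by
    intro i h; simp only [B', h, dif_neg, not_false_eq_true]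
  have hfN : ∀ (s : Set V), Disjoint (f '' s) N := by
    intro s
    rw [Set.disjoint_left]
    rintro w ⟨v, _, rfl⟩ hw
    exact hdisj v hw
  refine ⟨B', ?_, ?_, ?_⟩
  · intro i
    by_cases hi : i.val < t
    · exact connected_congr H (hB'lt i hi).symm (himg _)
    · exact connected_congr H (hB'ge i hi).symm hN
  · intro i j hij
    by_cases hi : i.val < t
    · by_cases hj : j.val < t
      · rw [hB'lt i hi, hB'lt j hj]
        have hne : (⟨i.val, hi⟩ : Fin t) ≠ ⟨j.val, hj⟩ := by
          intro h; apply hij; ext; simpa using congrArg Fin.val h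
        exact (Set.disjoint_image_iff hf).2 (h2 _ _ hne)
      · rw [hB'lt i hi, hB'ge j hj]; exact hfN _
    · by_cases hj : j.val < t
      · rw [hB'ge i hi, hB'lt j hj]; exact (hfN _).symm
      · exfalso; apply hij; ext; omega
  · intro i j hij
    by_cases hi : i.val < t
    · by_cases hj : j.val < t
      · rw [hB'lt i hi, hB'lt j hj]
        have hne : (⟨i.val, hi⟩ : Fin t) ≠ ⟨j.val, hj⟩ := by
          intro h; apply hij; ext; simpa using congrArg Fin.val h
        obtain ⟨u, hu, v, hv, huv⟩ := h3 _ _ hne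
        exact ⟨f u, Set.mem_image_of_mem f hu, f v, Set.mem_image_of_mem f hv, hadj _ _ huv⟩
      · rw [hB'lt i hi, hB'ge j hj]
        obtain ⟨u, hu⟩ := (h1 ⟨i.val, hi⟩).nonempty
        obtain ⟨w, hw, huw⟩ := hdom u
        exact ⟨f u, Set.mem_image_of_mem f hu, w, hw, huw⟩
    · by_cases hj : j.val < t
      · rw [hB'ge i hi, hB'lt j hj]
        obtain ⟨u, hu⟩ := (h1 ⟨j.val, hj⟩).nonempty
        obtain ⟨w, hw, huw⟩ := hdom u
        exact ⟨w, hw, f u, Set.mem_image_of_mem f hu, huw.symm⟩
      · exfalso; apply hij; ext; omega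

theorem HasCliqueMinor.map {V W : Type*} {G : SimpleGraph V} {H : SimpleGraph W} {t : ℕ}
    (f : V → W) (hf : Function.Injective f) (hadj : ∀ u v, G.Adj u v → H.Adj (f u) (f v))
    (h : HasCliqueMinor G t) : HasCliqueMinor H t := by
  obtain ⟨B, h1, h2, h3⟩ := h
  refine ⟨fun i => f '' B i, ?_, ?_, ?_⟩
  · intro i
    let g : G.induce (B i) →g H.induce (f '' B i) :=
      { toFun := fun x => ⟨f x.1, Set.mem_image_of_mem f x.2⟩
        map_rel' := by
          intro x y hxy
          exact hadj _ _ hxy }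
    refine (h1 i).map g ?_
    rintro ⟨w, v, hv, rfl⟩
    exact ⟨⟨v, hv⟩, rfl⟩
  · intro i j hij
    exact (Set.disjoint_image_iff hf).2 (h2 _ _ hij)
  · intro i j hij
    obtain ⟨u, hu, v, hv, huv⟩ := h3 _ _ hij
    exact ⟨f u, Set.mem_image_of_mem f hu, f v, Set.mem_image_of_mem f hv, hadj _ _ huv⟩

end Vale.Agent.Lib.P060
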