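import Vale.Agent.Lib.P060.Minor

namespace Vale.Agent.Lib.P060

open Finset


/-- auxiliary: `c ⊆ [1, n-2]`, no two consecutive elements, `j` elements -/
def PS (n j : ℕ) (c : Finset ℕ) : Prop :=
  c.card = j ∧ (∀ x ∈ c, 1 ≤ x ∧ x + 2 ≤ n) ∧ (∀ x ∈ c, x + 1 ∉ c)

def IsNew (n k : ℕ) (S : Finset ℕ) : Prop :=
  IsStable (n + 1) k S ∧ (n ∈ S ∨ (0 ∈ S ∧ n - 1 ∈ S))

def NR (n k : ℕ) (S T : Finset ℕ) : Prop := IsNew n k S ∧ IsNew n k T ∧ Disjoint S T

def c0 (j : ℕ) : Finset ℕ := (range j).image (fun i => 2 * i + 1)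

theorem stable_succ {n k : ℕ} {S : Finset ℕ} (h : IsStable n k S) : IsStable (n + 1) k S := by
  obtain ⟨h1, h2, h3, h4⟩ := h
  refine ⟨h1, fun x hx => Nat.lt_succ_of_lt (h2 x hx), h3, ?_⟩
  rintro ⟨_, hn⟩
  have := h2 _ hn
  simp at this

theorem PS.stable_insert {n j : ℕ} {c : Finset ℕ} (hc : PS n j c) (hn : 1 ≤ n) :
    IsStable (n + 1) (j + 1) (insert n c) := by
  obtain ⟨h1, h2, h3⟩ := hc
  have hnc : n ∉ c := fun h => by have := (h2 n h).2; omega
  refine ⟨by rw [card_insert_of_notMem hnc, h1], ?_, ?_, ?_⟩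
  · intro x hx
    rcases mem_insert.1 hx with rfl | hx
    · omega
    · have := (h2 x hx).2; omega
  · intro x hx hx1
    rcases mem_insert.1 hx with rfl | hx
    · rcases mem_insert.1 hx1 with h | h
      · omega
      · have := (h2 _ h).2; omega
    · rcases mem_insert.1 hx1 with h | h
      · have := (h2 x hx).2; omega
      · exact h3 x hx h
  · rintro ⟨h0, _⟩
    rcases mem_insert.1 h0 with h | h
    · omega
    · have := (h2 0 h).1; omega

theorem PS.isNew_insert {n j : ℕ} {c : Finset ℕ} (hc : PS n j c) (hn : 1 ≤ n) :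
    IsNew n (j + 1) (insert n c) :=
  ⟨hc.stable_insert hn, Or.inl (mem_insert_self _ _)⟩

theorem ps_of_new {n j : ℕ} {S : Finset ℕ} (hS : IsStable (n + 1) (j + 1) S) (hn : n ∈ S) :
    PS n j (S.erase n) := by
  obtain ⟨h1, h2, h3, h4⟩ := hS
  refine ⟨by rw [card_erase_of_mem hn, h1]; rfl, ?_, ?_⟩
  · intro x hx
    have hxS := mem_of_mem_erase hx
    have hxn : x ≠ n := (mem_erase.1 hx).1
    have h5 := h2 x hxS
    have h6 : x + 1 ≠ n := fun h => h3 x hxS (h ▸ hn)
    have h7 : x ≠ 0 := by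
      rintro rfl
      exact h4 ⟨hxS, by simpa using hn⟩
    omega
  · intro x hx hx1
    exact h3 x (mem_of_mem_erase hx) (mem_of_mem_erase hx1)

theorem wstable {n k : ℕ} {b : Finset ℕ} (hn : 3 ≤ n)
    (hb1 : ∀ v ∈ b, 2 ≤ v ∧ v + 3 ≤ n) (hb2 : ∀ v ∈ b, v + 1 ∉ b) (hb3 : b.card + 2 = k) :
    IsNew n k (insert 0 (insert (n - 1) b)) := by
  have hnb : n - 1 ∉ b := fun h => by have := (hb1 _ h).2; omega
  have h0b : 0 ∉ insert (n - 1) b := by
    intro h
    rcases mem_insert.1 h with h | h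
    · omega
    · have := (hb1 _ h).1; omega
  refine ⟨⟨?_, ?_, ?_, ?_⟩, Or.inr ⟨mem_insert_self _ _, mem_insert_of_mem (mem_insert_self _ _)⟩⟩
  · rw [card_insert_of_notMem h0b, card_insert_of_notMem hnb]; omega
  · intro x hx
    rcases mem_insert.1 hx with rfl | hx
    · omega
    · rcases mem_insert.1 hx with rfl | hx
      · omega
      · have := (hb1 _ hx).2; omega
  · intro x hx hx1
    have key : ∀ y, y ∈ insert 0 (insert (n - 1) b) → y = 0 ∨ y = n - 1 ∨ y ∈ b := by
      intro y hy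
      rcases mem_insert.1 hy with h | hy
      · exact Or.inl h
      · rcases mem_insert.1 hy with h | hy
        · exact Or.inr (Or.inl h)
        · exact Or.inr (Or.inr hy)
    rcases key x hx with rfl | rfl | hxb
    · rcases key _ hx1 with h | h | h
      · omega
      · omega
      · have := (hb1 _ h).1; omega
    · rcases key _ hx1 with h | h | h
      · omega
      · omega
      · have := (hb1 _ h).2; omega
    · rcases key _ hx1 with h | h | h
      · omega
      · have := (hb1 _ hxb).2; omega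
      · exact hb2 x hxb h
  · rintro ⟨_, h⟩
    rcases mem_insert.1 h with h | h
    · omega
    · rcases mem_insert.1 h with h | h
      · omega
      · have := (hb1 _ h).2; omega

theorem wdisj {n : ℕ} {b c : Finset ℕ} (hn : 3 ≤ n)
    (hb1 : ∀ v ∈ b, 2 ≤ v ∧ v + 3 ≤ n) (hc : ∀ x ∈ c, 1 ≤ x ∧ x + 2 ≤ n)
    (hbc : ∀ v ∈ b, v ∉ c) :
    Disjoint (insert 0 (insert (n - 1) b)) (insert n c) := by
  rw [disjoint_left]
  intro y hy hy2
  rcases mem_insert.1 hy with rfl | hy
  · rcases mem_insert.1 hy2 with h | h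
    · omega
    · have := (hc _ h).1; omega
  · rcases mem_insert.1 hy with rfl | hy
    · rcases mem_insert.1 hy2 with h | h
      · omega
      · have := (hc _ h).2; omega
    · rcases mem_insert.1 hy2 with h | h
      · have := (hb1 _ hy).2; omega
      · exact hbc _ hy h

theorem shift_step {n j : ℕ} {c : Finset ℕ} (hc : PS n j c) {x : ℕ} (hx2 : x + 2 ∈ c)
    (hx : x ∉ c) :
    PS n j (insert (x + 1) (c.erase (x + 2))) ∧
    ∃ w, IsNew n (j + 1) w ∧ Disjoint w (insert n c) ∧
      Disjoint w (insert n (insert (x + 1) (c.erase (x + 2)))) := by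
  have hc' := hc
  obtain ⟨h1, h2, h3⟩ := hc
  have hx1 : x + 1 ∉ c := fun h => h3 _ h hx2
  have hx3 : x + 3 ∉ c := h3 _ hx2
  have hn : x + 4 ≤ n := (h2 _ hx2).2
  have hj : 1 ≤ j := by
    rw [← h1]; exact card_pos.2 ⟨_, hx2⟩
  have hps : PS n j (insert (x + 1) (c.erase (x + 2))) := by
    refine ⟨?_, ?_, ?_⟩
    · rw [card_insert_of_notMem (fun h => hx1 (mem_of_mem_erase h)), card_erase_of_mem hx2, h1]
      omega
    · intro y hy
      rcases mem_insert.1 hy with rfl | hy
      · omega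
      · exact h2 y (mem_of_mem_erase hy)
    · intro y hy hy1
      rcases mem_insert.1 hy with rfl | hy
      · rcases mem_insert.1 hy1 with h | h
        · omega
        · exact (mem_erase.1 h).1 rfl
      · have hyc := mem_of_mem_erase hy
        rcases mem_insert.1 hy1 with h | h
        · have : y = x := by omega
          subst this; exact hx hyc
        · exact h3 y hyc (mem_of_mem_erase h)
  refine ⟨hps, ?_⟩
  have hdc : ∀ u ∈ c.erase (x + 2), u ∈ c ∧ (u < x ∨ x + 4 ≤ u) := by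
    intro u hu
    have huc := mem_of_mem_erase hu
    have hu2 : u ≠ x + 2 := (mem_erase.1 hu).1
    have hu0 : u ≠ x := fun h => hx (h ▸ huc)
    have hu1 : u ≠ x + 1 := fun h => hx1 (h ▸ huc)
    have hu3 : u ≠ x + 3 := fun h => hx3 (h ▸ huc)
    exact ⟨huc, by omega⟩
  have hglow : ∀ u, u < x → (if u < x then u + 1 else u - 1) = u + 1 := by
    intro u h; simp [h]
  have hghigh : ∀ u, x + 4 ≤ u → (if u < x then u + 1 else u - 1) = u - 1 := by
    intro u h
    have : ¬ u < x := by omega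
    simp [this]
  have hbmem : ∀ v ∈ (c.erase (x + 2)).image (fun u => if u < x then u + 1 else u - 1),
      ∃ u ∈ c, (u < x ∧ v = u + 1) ∨ (x + 4 ≤ u ∧ v + 1 = u) := by
    intro v hv
    obtain ⟨u, hu, rfl⟩ := mem_image.1 hv
    obtain ⟨huc, h | h⟩ := hdc u hu
    · exact ⟨u, huc, Or.inl ⟨h, hglow u h⟩⟩
    · refine ⟨u, huc, Or.inr ⟨h, ?_⟩⟩
      rw [hghigh u h]; omega
  have hb1 : ∀ v ∈ (c.erase (x + 2)).image (fun u => if u < x then u + 1 else u - 1),
      2 ≤ v ∧ v + 3 ≤ n := by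
    intro v hv
    obtain ⟨u, huc, ⟨h, rfl⟩ | ⟨h, h'⟩⟩ := hbmem v hv
    · have := h2 u huc; omega
    · have := h2 u huc; omega
  have hbc : ∀ v ∈ (c.erase (x + 2)).image (fun u => if u < x then u + 1 else u - 1),
      v ∉ c ∧ v ≠ x + 1 := by
    intro v hv
    obtain ⟨u, huc, ⟨h, rfl⟩ | ⟨h, h'⟩⟩ := hbmem v hv
    · exact ⟨h3 u huc, by omega⟩
    · refine ⟨fun hvc => ?_, by omega⟩
      exact h3 v hvc (h' ▸ huc)
  have hb2 : ∀ v ∈ (c.erase (x + 2)).image (fun u => if u < x then u + 1 else u - 1),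
      v + 1 ∉ (c.erase (x + 2)).image (fun u => if u < x then u + 1 else u - 1) := by
    intro v hv hv1
    obtain ⟨u, huc, ⟨h, rfl⟩ | ⟨h, h'⟩⟩ := hbmem v hv
    · obtain ⟨u', huc', ⟨h', e⟩ | ⟨h', e⟩⟩ := hbmem _ hv1
      · have : u' = u + 1 := by omega
        subst this; exact h3 u huc huc'
      · omega
    · obtain ⟨u', huc', ⟨h'', e⟩ | ⟨h'', e⟩⟩ := hbmem _ hv1
      · omega
      · have : u' = u + 1 := by omega
        subst this; exact h3 u huc huc'
  have hb3 : ((c.erase (x + 2)).image (fun u => if u < x then u + 1 else u - 1)).card + 2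
      = j + 1 := by
    rw [card_image_of_injOn, card_erase_of_mem hx2, h1]
    · omega
    · intro u hu u' hu' e
      have hu := hdc u (mem_coe.1 hu)
      have hu' := hdc u' (mem_coe.1 hu')
      simp only at e
      rcases hu.2 with h | h <;> rcases hu'.2 with h' | h'
      · rw [hglow u h, hglow u' h'] at e; omega
      · rw [hglow u h, hghigh u' h'] at e; omega
      · rw [hghigh u h, hglow u' h'] at e; omega
      · rw [hghigh u h, hghigh u' h'] at e; omega
  refine ⟨insert 0 (insert (n - 1)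
    ((c.erase (x + 2)).image (fun u => if u < x then u + 1 else u - 1))),
    wstable (by omega) hb1 hb2 hb3, wdisj (by omega) hb1 h2 (fun v hv => (hbc v hv).1),
    wdisj (by omega) hb1 hps.2.1 ?_⟩
  intro v hv hv'
  rcases mem_insert.1 hv' with h | h
  · exact (hbc v hv).2 h
  · exact (hbc v hv).1 (mem_of_mem_erase h)

theorem canon {n j : ℕ} {c : Finset ℕ} (hc : PS n j c) (hns : ∀ x, x + 2 ∈ c → x ∈ c) :
    c = c0 j := by
  obtain ⟨h1, h2, h3⟩ := hc
  have key : ∀ y, y ∈ c → ∃ i, y = 2 * i + 1 ∧ ∀ i', i' ≤ i → 2 * i' + 1 ∈ c := by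
    intro y
    induction y using Nat.strong_induction_on with
    | _ y ih =>
      intro hy
      have hy1 := (h2 y hy).1
      rcases Nat.lt_or_ge y 3 with hlt | hge
      · have hy2 : y ≠ 2 := by
          rintro rfl
          have := (h2 0 (hns 0 hy)).1
          omega
        have : y = 1 := by omega
        subst this
        refine ⟨0, rfl, fun i' hi' => ?_⟩
        have : i' = 0 := by omega
        subst this; exact hy
      · obtain ⟨x, rfl⟩ : ∃ x, y = x + 2 := ⟨y - 2, by omega⟩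
        obtain ⟨i, hi, hall⟩ := ih x (by omega) (hns x hy)
        refine ⟨i + 1, by omega, fun i' hi' => ?_⟩
        rcases Nat.lt_or_ge i' (i + 1) with hlt | hge'
        · exact hall i' (by omega)
        · have : i' = i + 1 := by omega
          subst this
          have e : 2 * (i + 1) + 1 = x + 2 := by omega
          rw [e]; exact hy
  have hsub : c ⊆ c0 j := by
    intro y hy
    obtain ⟨i, rfl, hall⟩ := key y hy
    have hsub' : (range (i + 1)).image (fun i => 2 * i + 1) ⊆ c := by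
      intro z hz
      obtain ⟨i', hi', rfl⟩ := mem_image.1 hz
      exact hall i' (by have := mem_range.1 hi'; omega)
    have hcard := card_le_card hsub'
    rw [card_image_of_injective _ (fun a b hab => by simpa using hab), card_range, h1] at hcard
    exact mem_image.2 ⟨i, mem_range.2 (by omega), rfl⟩
  refine eq_of_subset_of_card_le hsub ?_
  rw [h1, c0, card_image_of_injective _ (fun a b hab => by simpa using hab), card_range]

theorem ps_c0 {n j : ℕ} (hn : 2 * j + 1 ≤ n) : PS n j (c0 j) := by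
  refine ⟨?_, ?_, ?_⟩
  · rw [c0, card_image_of_injective _ (fun a b hab => by simpa using hab), card_range]
  · intro x hx
    obtain ⟨i, hi, rfl⟩ := mem_image.1 hx
    have := mem_range.1 hi
    omega
  · intro x hx hx1
    obtain ⟨i, hi, rfl⟩ := mem_image.1 hx
    obtain ⟨i', hi', e⟩ := mem_image.1 hx1
    omega

theorem reach_canon (n j : ℕ) (hn : 1 ≤ n) : ∀ (s : ℕ) (c : Finset ℕ), c.sum id = s → PS n j c →
    Relation.ReflTransGen (NR n (j + 1)) (insert n (c0 j)) (insert n c) := by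
  intro s
  induction s using Nat.strong_induction_on with
  | _ s ih =>
    intro c hs hc
    by_cases hsh : ∃ x, x + 2 ∈ c ∧ x ∉ c
    · obtain ⟨x, hx2, hx⟩ := hsh
      obtain ⟨hc', w, hw, hwc, hwc'⟩ := shift_step hc hx2 hx
      have hx1 : x + 1 ∉ c.erase (x + 2) := fun h => hc.2.2 _ (mem_of_mem_erase h) hx2
      have hsum : (insert (x + 1) (c.erase (x + 2))).sum id < s := by
        rw [sum_insert hx1, ← hs, ← add_sum_erase c id hx2]
        simp only [id]
        omega
      have h1 := ih _ hsum _ rfl hc'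
      exact (h1.tail ⟨hc'.isNew_insert hn, hw, hwc'.symm⟩).tail ⟨hw, hc.isNew_insert hn, hwc⟩
    · simp only [not_exists, not_and, not_not] at hsh
      rw [canon hc hsh]

theorem w_to_a {n j : ℕ} {S : Finset ℕ} (hS : IsStable (n + 1) (j + 1) S) (h0 : 0 ∈ S)
    (hn1 : n - 1 ∈ S) (hn : 1 ≤ n) :
    ∃ c, PS n j c ∧ Disjoint S (insert n c) := by
  obtain ⟨h1, h2, h3, h4⟩ := hS
  have hnS : n ∉ S := by
    have := h3 _ hn1
    rwa [Nat.sub_add_cancel hn] at this
  have h1S : 1 ∉ S := h3 0 h0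
  have hu : ∀ u ∈ S.erase 0, u ∈ S ∧ 2 ≤ u ∧ u + 1 ≤ n := by
    intro u hu
    have huS := mem_of_mem_erase hu
    have hu0 : u ≠ 0 := (mem_erase.1 hu).1
    have hu1 : u ≠ 1 := fun h => h1S (h ▸ huS)
    have hun : u ≠ n := fun h => hnS (h ▸ huS)
    have := h2 u huS
    exact ⟨huS, by omega, by omega⟩
  refine ⟨(S.erase 0).image (fun u => u - 1), ⟨?_, ?_, ?_⟩, ?_⟩
  · rw [card_image_of_injOn, card_erase_of_mem h0, h1]
    · rfl
    · intro u hu' u' hu'' e
      have := hu u (mem_coe.1 hu')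
      have := hu u' (mem_coe.1 hu'')
      simp only at e
      omega
  · intro v hv
    obtain ⟨u, hu', rfl⟩ := mem_image.1 hv
    have := hu u hu'
    omega
  · intro v hv hv1
    obtain ⟨u, hu', rfl⟩ := mem_image.1 hv
    obtain ⟨u', hu'', e⟩ := mem_image.1 hv1
    have a1 := hu u hu'
    have a2 := hu u' hu''
    have : u' = u + 1 := by omega
    subst this
    exact h3 u a1.1 a2.1
  · rw [disjoint_left]
    intro y hy hy2
    rcases mem_insert.1 hy2 with h | h
    · exact hnS (h ▸ hy)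
    · obtain ⟨u, hu', rfl⟩ := mem_image.1 h
      have a1 := hu u hu'
      have e : u - 1 + 1 = u := by omega
      exact h3 (u - 1) hy (e ▸ a1.1)

theorem old_to_new {n j : ℕ} {T : Finset ℕ} (hT : IsStable n (j + 1) T) :
    ∃ c, PS n j c ∧ Disjoint T (insert n c) ∧ 1 ≤ n := by
  obtain ⟨h1, h2, h3, h4⟩ := hT
  have hne : T.Nonempty := card_pos.1 (by rw [h1]; omega)
  have hM := max'_mem T hne
  have hMn := h2 _ hM
  have hu : ∀ u ∈ T.erase (T.max' hne), u ∈ T ∧ u + 2 ≤ T.max' hne := by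
    intro u hu
    have huT := mem_of_mem_erase hu
    have hu0 : u ≠ T.max' hne := (mem_erase.1 hu).1
    have hle := le_max' T u huT
    have hu1 : u + 1 ≠ T.max' hne := fun h => h3 u huT (h ▸ hM)
    exact ⟨huT, by omega⟩
  refine ⟨(T.erase (T.max' hne)).image (fun u => u + 1), ⟨?_, ?_, ?_⟩, ?_, by omega⟩
  · rw [card_image_of_injective _ (fun a b hab => by simpa using hab), card_erase_of_mem hM, h1]
    rfl
  · intro v hv
    obtain ⟨u, hu', rfl⟩ := mem_image.1 hv
    have := hu u hu'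
    omega
  · intro v hv hv1
    obtain ⟨u, hu', rfl⟩ := mem_image.1 hv
    obtain ⟨u', hu'', e⟩ := mem_image.1 hv1
    have a1 := hu u hu'
    have a2 := hu u' hu''
    have : u' = u + 1 := by omega
    subst this
    exact h3 u a1.1 a2.1
  · rw [disjoint_left]
    intro y hy hy2
    rcases mem_insert.1 hy2 with h | h
    · have := h2 y hy; omega
    · obtain ⟨u, hu', rfl⟩ := mem_image.1 h
      exact h3 u (hu u hu').1 hy

theorem new_reach {n j : ℕ} (hn : 2 * j + 1 ≤ n) {S : Finset ℕ} (hS : IsNew n (j + 1) S) :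
    Relation.ReflTransGen (NR n (j + 1)) (insert n (c0 j)) S := by
  have hn1 : 1 ≤ n := by omega
  obtain ⟨hst, hn' | ⟨h0, hn'⟩⟩ := hS
  · have hps := ps_of_new hst hn'
    have := reach_canon n j hn1 _ _ rfl hps
    rwa [insert_erase hn'] at this
  · obtain ⟨c, hc, hdisj⟩ := w_to_a hst h0 hn' hn1
    have := reach_canon n j hn1 _ _ rfl hc
    exact this.tail ⟨hc.isNew_insert hn1, ⟨hst, Or.inr ⟨h0, hn'⟩⟩, hdisj.symm⟩

theorem lift_reach {n k : ℕ} (hk : 1 ≤ k) {S : Finset ℕ} (hS : IsStable (n + 1) k S) :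
    ∀ {T : Finset ℕ}, Relation.ReflTransGen (NR n k) S T → ∀ (hT : IsStable (n + 1) k T),
    Relation.ReflTransGen
      (fun x y : {S : Finset ℕ // IsStable (n + 1) k S} =>
        x ∈ {S : {S : Finset ℕ // IsStable (n + 1) k S} | n ∈ S.1 ∨ (0 ∈ S.1 ∧ n - 1 ∈ S.1)} ∧
        y ∈ {S : {S : Finset ℕ // IsStable (n + 1) k S} | n ∈ S.1 ∨ (0 ∈ S.1 ∧ n - 1 ∈ S.1)} ∧
        (schrijverGraph (n + 1) k).Adj x y) ⟨S, hS⟩ ⟨T, hT⟩ := by
  intro T h
  induction h with
  | refl => intro _; exact Relation.ReflTransGen.refl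
  | @tail b c hab hbc ih =>
    intro hT
    refine (ih hbc.1.1).tail ⟨hbc.1.2, hbc.2.1.2, ?_, hbc.2.2⟩
    intro e
    have e' : b = c := congrArg Subtype.val e
    have hbne : b.Nonempty := card_pos.1 (by rw [hbc.1.1.1]; omega)
    obtain ⟨z, hz⟩ := hbne
    exact (disjoint_left.1 hbc.2.2 hz) (e' ▸ hz)

theorem schrijver_new_connected (n j : ℕ) (hn : 2 * j + 1 ≤ n) :
    ((schrijverGraph (n + 1) (j + 1)).induce
      {S : {S : Finset ℕ // IsStable (n + 1) (j + 1) S} |
        n ∈ S.1 ∨ (0 ∈ S.1 ∧ n - 1 ∈ S.1)}).Connected := by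
  have hn1 : 1 ≤ n := by omega
  have hps := ps_c0 (n := n) (j := j) hn
  refine induce_connected_of_reach _ _ ⟨insert n (c0 j), hps.stable_insert hn1⟩
    (Or.inl (mem_insert_self _ _)) ?_
  intro v hv
  exact lift_reach (by omega) _ (new_reach hn ⟨v.2, hv⟩) v.2

theorem schrijver_step (n j t : ℕ) (hn : 2 * j + 1 ≤ n)
    (h : HasCliqueMinor (schrijverGraph n (j + 1)) t) :
    HasCliqueMinor (schrijverGraph (n + 1) (j + 1)) (t + 1) := by
  refine HasCliqueMinor.extend (fun S => ⟨S.1, stable_succ S.2⟩) ?_ ?_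
    {S : {S : Finset ℕ // IsStable (n + 1) (j + 1) S} | n ∈ S.1 ∨ (0 ∈ S.1 ∧ n - 1 ∈ S.1)}
    (schrijver_new_connected n j hn) ?_ ?_ h
  · intro S T e
    have e' : S.1 = T.1 := by simpa using congrArg Subtype.val e
    exact Subtype.ext e'
  · intro S T hST
    refine ⟨fun e => hST.1 ?_, hST.2⟩
    have e' : S.1 = T.1 := by simpa using congrArg Subtype.val e
    exact Subtype.ext e'
  · intro S hS
    obtain ⟨h1, h2, h3, h4⟩ := S.2
    rcases hS with h | h
    · have := h2 _ h; omega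
    · exact h4 h
  · intro S
    obtain ⟨c, hc, hdisj, hn1⟩ := old_to_new S.2
    refine ⟨⟨insert n c, hc.stable_insert hn1⟩, Or.inl (mem_insert_self _ _), ?_, hdisj⟩
    intro e
    have e' : S.1 = insert n c := congrArg Subtype.val e
    have := S.2.2.1 n (e' ▸ mem_insert_self _ _)
    omega

theorem schrijver_base (j : ℕ) : HasCliqueMinor (schrijverGraph (2 * (j + 1)) (j + 1)) 2 := by
  have hE : IsStable (2 * (j + 1)) (j + 1) ((range (j + 1)).image (fun i => 2 * i)) := by
    refine ⟨?_, ?_, ?_, ?_⟩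
    · rw [card_image_of_injective _ (fun a b hab => by simpa using hab), card_range]
    · intro x hx
      obtain ⟨i, hi, rfl⟩ := mem_image.1 hx
      have := mem_range.1 hi
      omega
    · intro x hx hx1
      obtain ⟨i, hi, rfl⟩ := mem_image.1 hx
      obtain ⟨i', hi', e⟩ := mem_image.1 hx1
      omega
    · rintro ⟨_, h⟩
      obtain ⟨i', hi', e⟩ := mem_image.1 h
      omega
  have hO : IsStable (2 * (j + 1)) (j + 1) ((range (j + 1)).image (fun i => 2 * i + 1)) := by
    refine ⟨?_, ?_, ?_, ?_⟩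
    · rw [card_image_of_injective _ (fun a b hab => by simpa using hab), card_range]
    · intro x hx
      obtain ⟨i, hi, rfl⟩ := mem_image.1 hx
      have := mem_range.1 hi
      omega
    · intro x hx hx1
      obtain ⟨i, hi, rfl⟩ := mem_image.1 hx
      obtain ⟨i', hi', e⟩ := mem_image.1 hx1
      omega
    · rintro ⟨h, _⟩
      obtain ⟨i', hi', e⟩ := mem_image.1 h
      omega
  have hdisj : Disjoint ((range (j + 1)).image (fun i => 2 * i))
      ((range (j + 1)).image (fun i => 2 * i + 1)) := by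
    rw [disjoint_left]
    intro y hy hy'
    obtain ⟨i, hi, rfl⟩ := mem_image.1 hy
    obtain ⟨i', hi', e⟩ := mem_image.1 hy'
    omega
  refine hasCliqueMinor_two_of_adj _ ⟨_, hE⟩ ⟨_, hO⟩ ⟨?_, hdisj⟩
  intro e
  have e' : (range (j + 1)).image (fun i => 2 * i) = (range (j + 1)).image (fun i => 2 * i + 1) :=
    congrArg Subtype.val e
  have h0 : 0 ∈ (range (j + 1)).image (fun i => 2 * i) :=
    mem_image.2 ⟨0, mem_range.2 (by omega), rfl⟩
  rw [e'] at h0
  obtain ⟨i', hi', e⟩ := mem_image.1 h0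
  omega

theorem schrijver_minor_aux (j : ℕ) :
    ∀ m, HasCliqueMinor (schrijverGraph (2 * (j + 1) + m) (j + 1)) (m + 2) := by
  intro m
  induction m with
  | zero => exact schrijver_base j
  | succ m ih => exact schrijver_step (2 * (j + 1) + m) j (m + 2) (by omega) ih

/-- The Schrijver graph `SG(n,k)` has a complete minor on `n - 2k + 2` vertices. -/
theorem schrijver_minor (n k : ℕ) (hk : 1 ≤ k) (hn : 2 * k ≤ n) :
    HasCliqueMinor (schrijverGraph n k) (n - 2 * k + 2) := by
  obtain ⟨j, rfl⟩ : ∃ j, k = j + 1 := ⟨k - 1, by omega⟩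
  obtain ⟨m, rfl⟩ : ∃ m, n = 2 * (j + 1) + m := ⟨n - 2 * (j + 1), by omega⟩
  have e : 2 * (j + 1) + m - 2 * (j + 1) + 2 = m + 2 := by omega
  rw [e]
  exact schrijver_minor_aux j m

/-- The Schrijver graph `SG(n,k)` is `(n - 2k + 2)`-colourable. -/
theorem schrijver_colorable (n k : ℕ) (hk : 1 ≤ k) (hn : 2 * k ≤ n) :
    (schrijverGraph n k).Colorable (n - 2 * k + 2) := by
  have hne : ∀ S : {S : Finset ℕ // IsStable n k S}, S.1.Nonempty := fun S =>
    card_pos.1 (by rw [S.2.1]; omega)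
  refine ⟨SimpleGraph.Coloring.mk
    (fun S => ⟨min (S.1.min' (hne S)) (n - 2 * k + 1), by
      have := min_le_right (S.1.min' (hne S)) (n - 2 * k + 1); omega⟩) ?_⟩
  intro S T hST e
  have e' : min (S.1.min' (hne S)) (n - 2 * k + 1) = min (T.1.min' (hne T)) (n - 2 * k + 1) :=
    congrArg Fin.val e
  have hSm := min'_mem S.1 (hne S)
  have hTm := min'_mem T.1 (hne T)
  by_cases hlt : S.1.min' (hne S) < n - 2 * k + 1
  · have : S.1.min' (hne S) = T.1.min' (hne T) := by
      rw [min_eq_left hlt.le] at e'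
      rcases le_total (T.1.min' (hne T)) (n - 2 * k + 1) with h | h
      · rw [min_eq_left h] at e'; exact e'
      · rw [min_eq_right h] at e'; omega
    exact disjoint_left.1 hST.2 hSm (this ▸ hTm)
  · have hS' : n - 2 * k + 1 ≤ S.1.min' (hne S) := by omega
    have hT' : n - 2 * k + 1 ≤ T.1.min' (hne T) := by
      rw [min_eq_right hS'] at e'
      by_contra hcon
      rw [min_eq_left (by omega)] at e'
      omega
    have hsub : S.1 ∪ T.1 ⊆ Ico (n - 2 * k + 1) n := by
      intro x hx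
      rcases mem_union.1 hx with h | h
      · exact mem_Ico.2 ⟨hS'.trans (min'_le _ _ h), S.2.2.1 x h⟩
      · exact mem_Ico.2 ⟨hT'.trans (min'_le _ _ h), T.2.2.1 x h⟩
    have hcard := card_le_card hsub
    rw [card_union_of_disjoint hST.2, S.2.1, T.2.1, Nat.card_Ico] at hcard
    omega

/-- Hadwiger's conjecture holds for Schrijver graphs. -/
theorem schrijver_hadwiger (n k : ℕ) (hk : 1 ≤ k) (hn : 2 * k ≤ n) (t : ℕ)
    (h : ¬ HasCliqueMinor (schrijverGraph n k) (t + 1)) : (schrijverGraph n k).Colorable t := by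
  have hle : n - 2 * k + 2 ≤ t := by
    by_contra hcon
    exact h ((schrijver_minor n k hk hn).mono (by omega))
  exact (schrijver_colorable n k hk hn).mono hle

end Vale.Agent.Lib.P060
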